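import Vale.Agent.P269.H707.L0

/-! # The constraint `L_0` over the Novikov ring (helper707) -/

set_option autoImplicit false

namespace Vale.Agent.P269.H707

open Vale.Agent.P269.H207 Finset

variable (X : Target)

/-- `∑ φ g d ħ^g Q^d` -/
noncomputable def emb (φ : ℕ → ℕ → ℂ) : Nov :=
  PowerSeries.mk fun d => HahnSeries.ofPowerSeries ℤ ℂ (PowerSeries.mk fun g => φ g d)

theorem emb_add (φ ψ : ℕ → ℕ → ℂ) : emb (fun g d => φ g d + ψ g d) = emb φ + emb ψ := by
  ext1 d
  simp only [emb, PowerSeries.coeff_mk, map_add]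
  rw [← map_add]
  congr 1

theorem algebraMap_Nov (c : ℂ) : algebraMap ℂ Nov c = PowerSeries.C (HahnSeries.C c) := by
  rw [PowerSeries.algebraMap_apply]
  congr 1
  rw [HahnSeries.algebraMap_apply']
  simp

theorem emb_smul (c : ℂ) (φ : ℕ → ℕ → ℂ) :
    emb (fun g d => c * φ g d) = algebraMap ℂ Nov c * emb φ := by
  ext1 d
  rw [algebraMap_Nov, PowerSeries.coeff_C_mul]
  simp only [emb, PowerSeries.coeff_mk]
  rw [← HahnSeries.ofPowerSeries_C, ← map_mul]
  congr 1
  ext g
  simp

theorem emb_zero : emb (fun _ _ => 0) = 0 := by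
  have := emb_smul 0 (fun _ _ => 0)
  simpa using this

theorem emb_neg (φ : ℕ → ℕ → ℂ) : emb (fun g d => - φ g d) = - emb φ := by
  apply eq_neg_of_add_eq_zero_left
  rw [← emb_add, ← emb_zero]
  congr 1
  funext g d
  ring

theorem hb_mul_potential (GW : ℕ → ℕ → List X.V → ℂ) (L : List X.V) :
    hb * potential X GW L = emb (fun g d => GW g d L) := by
  ext1 d
  rw [hb, PowerSeries.coeff_C_mul]
  simp only [potential, emb, PowerSeries.coeff_mk]
  rw [← mul_assoc, HahnSeries.single_mul_single]
  simp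

theorem emb_sum {ι : Type*} (s : Finset ι) (φ : ι → ℕ → ℕ → ℂ) :
    emb (fun g d => ∑ i ∈ s, φ i g d) = ∑ i ∈ s, emb (φ i) := by
  classical
  induction s using Finset.induction_on with
  | empty => simp [emb_zero]
  | insert a s ha ih =>
    rw [Finset.sum_insert ha, ← ih, ← emb_add]
    congr 1
    funext g d
    rw [Finset.sum_insert ha]

theorem emb_single (g₀ d₀ : ℕ) (c : ℂ) :
    emb (fun g d => if g = g₀ ∧ d = d₀ then c else 0) =
      PowerSeries.monomial d₀ (HahnSeries.single (g₀ : ℤ) c) := by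
  ext1 d
  rw [PowerSeries.coeff_monomial]
  simp only [emb, PowerSeries.coeff_mk]
  split_ifs with h
  · have : (PowerSeries.mk fun g => if g = g₀ ∧ d = d₀ then c else 0) =
        PowerSeries.monomial g₀ c := by
      ext g
      rw [PowerSeries.coeff_mk, PowerSeries.coeff_monomial]
      simp [h]
    have h2 : PowerSeries.monomial g₀ c = PowerSeries.C c * PowerSeries.X ^ g₀ := by
      rw [PowerSeries.X_pow_eq, ← PowerSeries.monomial_zero_eq_C_apply,
        PowerSeries.monomial_mul_monomial]
      simp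
    rw [this, h2, map_mul, HahnSeries.ofPowerSeries_C, HahnSeries.ofPowerSeries_X_pow,
      HahnSeries.C_apply, HahnSeries.single_mul_single]
    simp
  · have : (PowerSeries.mk fun g => if g = g₀ ∧ d = d₀ then c else 0) = 0 := by
      ext g
      simp [h]
    rw [this, map_zero]

theorem vf_AK_one_Nov (GW : ℕ → ℕ → List X.V → ℂ) (L : List X.V) :
    vf (AK X Nov 1) (fun L => emb (fun g d => GW g d L)) L =
      emb (fun g d => vf (AK X ℂ 1) (GW g d) L) := by
  induction L generalizing GW with
  | nil => simp [emb_zero]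
  | cons x L ih =>
    have h1 : dd x (fun L => emb (fun g d => GW g d L)) =
        fun L => emb (fun g d => (fun g d => dd x (GW g d)) g d L) := rfl
    have h2 : (fun g d => vf (AK X ℂ 1) (GW g d) (x :: L)) = fun g d =>
        (((X.b x.2 + x.1) * GW g d (x :: L) + (if x.1 = 0 then 0 else ∑ b : X.ι,
          X.R x.2 b * GW g d ((x.1 - 1, b) :: L))) + vf (AK X ℂ 1) (dd x (GW g d)) L) := by
      funext g d
      rw [vf_cons, dv_AK_one]
      rfl
    rw [vf_cons, h1, ih, dv_AK_one, h2, emb_add, emb_add, emb_smul]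
    congr 2
    split_ifs with h
    · rw [emb_zero]
    · rw [emb_sum]
      apply Finset.sum_congr rfl
      intro b _
      rw [emb_smul]

theorem BK_one (R' : Type*) [CommRing R'] [Algebra ℂ R'] : BK X R' 1 = 0 := by
  simp [BK]

theorem quad_CK (R' : Type*) [CommRing R'] [Algebra ℂ R'] (K : ℕ) (L : List X.V) :
    quad (CK X R' K) L = algebraMap ℂ R' (quad (CK X ℂ K) L) := by
  match L with
  | [] => simp [quad]
  | [x] => simp [quad]
  | [x, y] =>
    simp only [quad, CK, Algebra.algebraMap_self_apply]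
    split_ifs <;> simp
  | x :: y :: z :: L => simp [quad]

theorem emb_const (c : ℂ) : emb (fun g d => if g = 0 ∧ d = 0 then c else 0) =
    algebraMap ℂ Nov c := by
  rw [emb_single, algebraMap_Nov]
  simp [PowerSeries.monomial_zero_eq_C_apply]

/-- `L_0` for the total potential. -/
theorem L0_Nov {GW : ℕ → ℕ → List X.V → ℂ} (h : IsGW X GW) :
    zz X.par hb (1, X.one) (AK X Nov 1) (BK X Nov 1) (CK X Nov 1) (hb * cK X Nov 1)
      (hb • potential X GW) = 0 := by
  funext L
  have hF : hb • potential X GW = fun L => emb (fun g d => GW g d L) := by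
    funext L
    exact hb_mul_potential X GW L
  rw [hF, zz, BK_one]
  simp only [Pi.add_apply, Pi.neg_apply, Pi.smul_apply, Pi.zero_apply]
  rw [vf_AK_one_Nov, dv_AK_one, quad_CK, ← emb_const (quad (CK X ℂ 1) L)]
  have h1 : sec (0 : X.V × X.V →₀ Nov) (fun L => emb fun g d => GW g d L) L = 0 := by
    simp [sec]
  have h2 : spl X.par (0 : X.V × X.V →₀ Nov) (fun L => emb fun g d => GW g d L)
    (fun L => emb fun g d => GW g d L) L = 0 := by
    simp [spl]
  rw [h1, h2]
  have h3 : (cst (hb * cK X Nov 1) L : Nov) =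
      emb (fun g d => if g = 1 ∧ d = 0 then cst (X.chi / 16 - X.strMu2 / 4) L else 0) := by
    rw [emb_single]
    cases L with
    | nil =>
      simp only [cst, cK, if_true]
      rw [algebraMap_Nov, hb, ← map_mul, HahnSeries.C_apply, HahnSeries.single_mul_single]
      simp [PowerSeries.monomial_zero_eq_C_apply]
    | cons x L =>
      simp [cst]
  have h4 : (algebraMap ℂ Nov (X.b X.one + ((1 : ℕ) : ℂ)) * emb (fun g d => GW g d ((1, X.one) :: L)) +
      (if 1 = 0 then 0 else ∑ b : X.ι, algebraMap ℂ Nov (X.R X.one b) *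
        emb (fun g d => GW g d ((1 - 1, b) :: L)))) =
      emb (fun g d => dv (AK X ℂ 1 (1, X.one)) (GW g d) L) := by
    have : (fun g d => dv (AK X ℂ 1 (1, X.one)) (GW g d) L) = fun g d =>
        (X.b X.one + ((1 : ℕ) : ℂ)) * GW g d ((1, X.one) :: L) + ∑ b : X.ι, X.R X.one b *
          GW g d ((1 - 1, b) :: L) := by
      funext g d
      rw [dv_AK_one]
      rfl
    rw [this, emb_add, emb_smul, emb_sum]
    congr 1
    rw [if_neg one_ne_zero]
    apply Finset.sum_congr rfl
    intro b _
    rw [emb_smul]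
  rw [h3]
  have h5 := h4
  simp only [if_neg one_ne_zero] at h5 ⊢
  have h6 : hb • (0 : Nov) = 0 := by rw [smul_eq_mul, mul_zero]
  rw [h5, h6, add_zero, add_zero, ← emb_neg, ← emb_add, ← emb_add, ← emb_add, ← emb_zero]
  congr 1
  funext g d
  exact L0 X h g d L

end Vale.Agent.P269.H707
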