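import Vale.Agent.P269.H707.CILemmas

/-! # The target `ciTarget D ds` (helper707) -/

set_option autoImplicit false

namespace Vale.Agent.P269.H707

open Vale.Agent.P269.H207

/-- The cohomological data of a smooth complete intersection `X ⊂ P^N` of dimension `D ≥ 2` and
multidegree `ds`, `N = D + ds.length`. -/
noncomputable def ciTarget (D : ℕ) (ds : List ℕ) (hD : 2 ≤ D) (hds : ∀ d ∈ ds, 1 ≤ d) : Target where
  D := D
  ι := CIIdx D ds
  p := ciP D ds
  q := ciQ D ds
  one := Sum.inl 0
  η := Matrix.of (ciEta D ds)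
  R := Matrix.of (ciR D ds)
  c1 := ciC1 D ds
  c1cD1 := (ciC1CD1 D ds : ℂ)
  p_one := rfl
  q_one := rfl
  eq_one := ci_eq_one D ds hD
  no_H1 := ci_no_H1 D ds hD
  η_symm := ciEta_symm D ds
  η_type := ciEta_type D ds
  η_nondeg := ciEta_det D ds hds
  R_type := ciR_type D ds
  R_adj := ciR_adj D ds
  libgober_wood := ci_LW (by omega) ds hds

end Vale.Agent.P269.H707
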