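import Vale.Agent.P269.H707.Num

/-! # More numeric functions: `u' = U`, its powers, `log u'` and `u` -/

set_option autoImplicit false

namespace Vale.Agent.P269.H707

open Vale.Agent.P269.H207

theorem EE_add {α : Type*} (f g : List α → ℂ) : EE (f + g) = EE f + EE g := by
  funext L; simp [EE]; ring

theorem EE_smul {α : Type*} (c : ℂ) (f : List α → ℂ) : EE (c • f) = c • EE f := by
  funext L; simp [EE]; ring

theorem EE_cst {α : Type*} (c : ℂ) : EE (cst c : List α → ℂ) = 0 := by
  funext L
  cases L with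
  | nil => simp [EE]
  | cons x L => simp [EE, cst]

theorem Symm_cst {α : Type*} (c : ℂ) : Symm (cst c : List α → ℂ) := by
  intro K x y L
  cases K <;> rfl

theorem dd_cst' {α : Type*} (c : ℂ) (x : α) : dd x (cst c : List α → ℂ) = 0 := rfl

/-- `u'`: `⟨τ_0 τ_0 τ_0 …⟩_0` -/
noncomputable def UU : List ℕ → ℂ := dd 0 (dd 0 (dd 0 MM))

theorem UU_nil : UU [] = 1 := by
  simp [UU, MM]

theorem UU_symm : Symm UU := ((MM_symm.dd 0).dd 0).dd 0

theorem UU_string : dd 0 UU = DD UU := by
  have : dd 0 UU = dd 0 (dd 0 (dd 0 (DD MM + E2))) := by rw [← MM_string]; rfl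
  rw [this, dd_add, dd_zero_DD, dd_add, dd_zero_DD, dd_add, dd_zero_DD]
  have hE : dd 0 (dd 0 (dd 0 E2)) = 0 := by
    funext S; simp [E2]
  rw [hE, add_zero]
  rfl

theorem UU_dilaton : dd 1 UU = EE UU + UU := by
  funext L
  have h1 : dd 1 UU L = MM (1 :: 0 :: 0 :: 0 :: L) := by
    have h1 := MM_symm [0, 0] 0 1 L
    have h2 := MM_symm [0] 0 1 (0 :: L)
    have h3 := MM_symm [] 0 1 (0 :: 0 :: L)
    simp only [List.cons_append, List.nil_append] at h1 h2 h3
    simp only [UU, dd_apply]
    rw [h1, h2, h3]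
  rw [h1, MM_dilaton]
  simp only [EE, Pi.add_apply, UU, dd_apply, List.length_cons]
  push_cast
  ring

theorem UU_dim {L : List ℕ} (h : UU L ≠ 0) : L.sum = L.length := by
  have := MM_dim (L := 0 :: 0 :: 0 :: L) h
  simp only [List.sum_cons, List.length_cons] at this
  omega

/-- `u` -/
noncomputable def NN : List ℕ → ℂ := dd 0 (dd 0 MM)

theorem NN_symm : Symm NN := (MM_symm.dd 0).dd 0

theorem NN_string : dd 0 NN = DD NN + cst 1 := by
  have : dd 0 NN = dd 0 (dd 0 (DD MM + E2)) := by rw [← MM_string]; rfl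
  rw [this, dd_add, dd_zero_DD, dd_add, dd_zero_DD]
  have hE : dd 0 (dd 0 E2) = cst 1 := by
    funext S
    cases S <;> simp [E2, cst]
  rw [hE]
  rfl

theorem NN_dilaton : dd 1 NN = EE NN := by
  funext L
  have h1 : dd 1 NN L = MM (1 :: 0 :: 0 :: L) := by
    have h2 := MM_symm [0] 0 1 L
    have h3 := MM_symm [] 0 1 (0 :: L)
    simp only [List.cons_append, List.nil_append] at h2 h3
    simp only [NN, dd_apply]
    rw [h2, h3]
  rw [h1, MM_dilaton]
  simp only [EE, NN, dd_apply, List.length_cons]
  push_cast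
  ring

theorem NN_dim {L : List ℕ} (h : NN L ≠ 0) : L.sum + 1 = L.length := by
  have := MM_dim (L := 0 :: 0 :: L) h
  simp only [List.sum_cons, List.length_cons] at this
  omega

theorem NN_nil : NN [] = 0 := by
  simp [NN, MM]

/-- powers of `u'` -/
noncomputable def pw : ℕ → List ℕ → ℂ
  | 0 => cst 1
  | k + 1 => pr UU (pw k)

theorem pw_nil (k : ℕ) : pw k [] = 1 := by
  induction k with
  | zero => rfl
  | succ k ih => rw [pw, pr_nil, UU_nil, ih, one_mul]

theorem pw_symm (k : ℕ) : Symm (pw k) := by
  induction k with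
  | zero => exact Symm_cst 1
  | succ k ih => exact UU_symm.pr ih

theorem pw_string (k : ℕ) : dd 0 (pw k) = DD (pw k) := by
  induction k with
  | zero => rw [pw, dd_cst', DD_cst]
  | succ k ih => rw [pw, dd_pr, DD_pr, ih, UU_string]

theorem pw_dilaton (k : ℕ) : dd 1 (pw k) = EE (pw k) + (k : ℂ) • pw k := by
  induction k with
  | zero => rw [pw, dd_cst', EE_cst]; simp
  | succ k ih =>
    rw [pw, dd_pr, EE_pr, ih, UU_dilaton, pr_add_left, pr_add_right, pr_smul_right]
    push_cast
    rw [add_smul, one_smul]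
    abel

theorem pw_dim (k : ℕ) {L : List ℕ} (h : pw k L ≠ 0) : L.sum = L.length := by
  have key : ∀ L : List ℕ, pw k L ≠ 0 → (L.map fun m : ℕ => (m : ℤ) - 1).sum = 0 := by
    clear h L
    induction k with
    | zero =>
      intro L h
      cases L with
      | nil => simp
      | cons x L => exact absurd rfl h
    | succ k ih =>
      intro L h
      have := pr_supp (fun m : ℕ => (m : ℤ) - 1) (a := 0) (b := 0) (by
        intro S hS
        rw [map_wt, UU_dim hS, sub_self]) ih L h
      simpa using this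
  have := key L h
  rw [map_wt] at this
  omega

/-- `u' - 1` -/
noncomputable def hh : List ℕ → ℂ := UU + (-1 : ℂ) • cst 1

theorem hh_nil : hh [] = 0 := by simp [hh, UU_nil, cst]

theorem hh_symm : Symm hh := UU_symm.add ((Symm_cst 1).smul _)

theorem hh_string : dd 0 hh = DD hh := by
  rw [hh, dd_add, dd_smul, dd_cst', DD_add, DD_smul, DD_cst, UU_string]

theorem hh_dilaton : dd 1 hh = EE hh + hh + cst 1 := by
  rw [hh, dd_add, dd_smul, dd_cst', EE_add, EE_smul, EE_cst, UU_dilaton]
  funext L
  simp only [Pi.add_apply, Pi.smul_apply, smul_eq_mul, Pi.zero_apply]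
  ring

theorem hh_dim {L : List ℕ} (h : hh L ≠ 0) : L.sum = L.length := by
  cases L with
  | nil => rfl
  | cons x L =>
    apply UU_dim
    simpa [hh, cst] using h

/-- powers of `u' - 1` -/
noncomputable def hk : ℕ → List ℕ → ℂ
  | 0 => cst 1
  | k + 1 => pr hh (hk k)

theorem hk_symm (k : ℕ) : Symm (hk k) := by
  induction k with
  | zero => exact Symm_cst 1
  | succ k ih => exact hh_symm.pr ih

theorem hk_string (k : ℕ) : dd 0 (hk k) = DD (hk k) := by
  induction k with
  | zero => rw [hk, dd_cst', DD_cst]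
  | succ k ih => rw [hk, dd_pr, DD_pr, ih, hh_string]

theorem hk_dilaton (k : ℕ) : dd 1 (hk (k + 1)) =
    EE (hk (k + 1)) + ((k : ℂ) + 1) • (hk (k + 1) + hk k) := by
  induction k with
  | zero =>
    have h0 : hk (0 + 1) = hh := by
      rw [hk, hk, pr_comm, pr_cst_left, one_smul]
    rw [h0, hh_dilaton]
    have h1 : hk 0 = cst 1 := rfl
    rw [h1]
    push_cast
    rw [zero_add, one_smul]
    abel
  | succ k ih =>
    rw [hk, dd_pr, EE_pr, ih, hh_dilaton, pr_add_left, pr_add_left, pr_add_right, pr_smul_right,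
      pr_add_right, pr_cst_left, one_smul]
    have : pr hh (hk k) = hk (k + 1) := rfl
    rw [this]
    push_cast
    funext L
    simp only [Pi.add_apply, Pi.smul_apply, smul_eq_mul]
    ring

theorem hk_dim (k : ℕ) {L : List ℕ} (h : hk k L ≠ 0) : L.sum = L.length := by
  have key : ∀ L : List ℕ, hk k L ≠ 0 → (L.map fun m : ℕ => (m : ℤ) - 1).sum = 0 := by
    clear h L
    induction k with
    | zero =>
      intro L h
      cases L with
      | nil => simp
      | cons x L => exact absurd rfl h
    | succ k ih =>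
      intro L h
      have := pr_supp (fun m : ℕ => (m : ℤ) - 1) (a := 0) (b := 0) (by
        intro S hS
        rw [map_wt, hh_dim hS, sub_self]) ih L h
      simpa using this
  have := key L h
  rw [map_wt] at this
  omega

theorem pr_vanish {α : Type*} {f g : List α → ℂ} {a b : ℕ}
    (hf : ∀ S : List α, S.length < a → f S = 0) (hg : ∀ S : List α, S.length < b → g S = 0)
    (L : List α) (h : L.length < a + b) : pr f g L = 0 := by
  induction L generalizing f g a b with
  | nil =>
    rw [pr_nil]
    by_cases ha : 0 < a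
    · rw [hf [] (by simpa using ha), zero_mul]
    · rw [hg [] (by simp at h ⊢; omega), mul_zero]
  | cons x L ih =>
    rw [pr_cons]
    simp only [List.length_cons] at h
    have h1 : pr (dd x f) g L = 0 := by
      by_cases ha : 0 < a
      · exact ih (a := a - 1) (b := b) (fun S hS => hf (x :: S) (by simp; omega)) hg (by omega)
      · exact ih (a := 0) (b := b) (fun S hS => absurd hS (by omega)) hg (by omega)
    have h2 : pr f (dd x g) L = 0 := by
      by_cases hb : 0 < b
      · exact ih (a := a) (b := b - 1) hf (fun S hS => hg (x :: S) (by simp; omega)) (by omega)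
      · exact ih (a := a) (b := 0) hf (fun S hS => absurd hS (by omega)) (by omega)
    rw [h1, h2, add_zero]

theorem hk_vanish (k : ℕ) (L : List ℕ) (h : L.length < k) : hk k L = 0 := by
  induction k generalizing L with
  | zero => omega
  | succ k ih =>
    rw [hk]
    apply pr_vanish (a := 1) (b := k) _ ih L (by omega)
    intro S hS
    have : S = [] := List.length_eq_zero_iff.mp (by omega)
    rw [this, hh_nil]

/-- coefficients of the logarithm -/
noncomputable def ck (k : ℕ) : ℂ := (-1) ^ k / ((k : ℂ) + 1)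

/-- truncated logarithm -/
noncomputable def lg (n : ℕ) : List ℕ → ℂ := ∑ k ∈ Finset.range n, ck k • hk (k + 1)

/-- `log u'` -/
noncomputable def WW : List ℕ → ℂ := fun L => lg L.length L

theorem lg_stable {n : ℕ} {L : List ℕ} (h : L.length ≤ n) : lg n L = WW L := by
  unfold WW lg
  rw [Finset.sum_apply, Finset.sum_apply]
  symm
  apply Finset.sum_subset
  · intro k hk'
    simp only [Finset.mem_range] at hk' ⊢
    omega
  · intro k _ hk'
    simp only [Finset.mem_range] at hk'
    rw [Pi.smul_apply, hk_vanish (k + 1) L (by omega), smul_zero]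

theorem WW_nil : WW [] = 0 := by simp [WW, lg]

theorem WW_symm : Symm WW := by
  intro K x y L
  unfold WW lg
  have : (K ++ x :: y :: L).length = (K ++ y :: x :: L).length := by simp
  rw [this, Finset.sum_apply, Finset.sum_apply]
  apply Finset.sum_congr rfl
  intro k _
  rw [Pi.smul_apply, Pi.smul_apply, hk_symm]

theorem WW_dim {L : List ℕ} (h : WW L ≠ 0) : L.sum = L.length := by
  unfold WW lg at h
  rw [Finset.sum_apply] at h
  obtain ⟨k, _, hk'⟩ := Finset.exists_ne_zero_of_sum_ne_zero h
  rw [Pi.smul_apply] at hk'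
  exact hk_dim _ (right_ne_zero_of_smul hk')

theorem DD_sum {ι : Type*} (s : Finset ι) (f : ι → List ℕ → ℂ) :
    DD (∑ i ∈ s, f i) = ∑ i ∈ s, DD (f i) := by
  classical
  induction s using Finset.induction_on with
  | empty => simp
  | insert a s ha ih => rw [Finset.sum_insert ha, Finset.sum_insert ha, DD_add, ih]

theorem EE_sum {ι α : Type*} (s : Finset ι) (f : ι → List α → ℂ) :
    EE (∑ i ∈ s, f i) = ∑ i ∈ s, EE (f i) := by
  classical
  induction s using Finset.induction_on with
  | empty => funext L; simp [EE]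
  | insert a s ha ih => rw [Finset.sum_insert ha, Finset.sum_insert ha, EE_add, ih]

theorem dd_sum {ι α : Type*} (s : Finset ι) (f : ι → List α → ℂ) (x : α) :
    dd x (∑ i ∈ s, f i) = ∑ i ∈ s, dd x (f i) := by
  funext L
  simp [Finset.sum_apply]

theorem WW_string : dd 0 WW = DD WW := by
  funext L
  have h1 : dd 0 WW L = dd 0 (lg (L.length + 1)) L := rfl
  rw [h1]
  unfold lg
  rw [dd_sum]
  have h2 : ∀ k ∈ Finset.range (L.length + 1), dd 0 (ck k • hk (k + 1)) = DD (ck k • hk (k + 1)) := by
    intro k _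
    rw [dd_smul, DD_smul, hk_string]
  rw [Finset.sum_congr rfl h2, ← DD_sum]
  apply DD_congr
  intro S hS
  exact lg_stable (by omega)

theorem tel (L : List ℕ) (n : ℕ) : ∑ k ∈ Finset.range n, (-1 : ℂ) ^ k * (hk (k + 1) L + hk k L) =
    hk 0 L - (-1) ^ n * hk n L := by
  induction n with
  | zero => simp
  | succ n ih =>
    rw [Finset.sum_range_succ, ih, pow_succ]
    ring

theorem WW_dilaton : dd 1 WW = EE WW + cst 1 := by
  funext L
  have h1 : dd 1 WW L = dd 1 (lg (L.length + 1)) L := rfl
  rw [h1]
  unfold lg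
  rw [dd_sum, Finset.sum_apply]
  have h2 : ∀ k ∈ Finset.range (L.length + 1), dd 1 (ck k • hk (k + 1)) L =
      EE (ck k • hk (k + 1)) L + (-1) ^ k * (hk (k + 1) L + hk k L) := by
    intro k _
    rw [dd_smul, hk_dilaton]
    have hk1 : ((k : ℂ) + 1) ≠ 0 := by exact_mod_cast k.succ_ne_zero
    simp only [Pi.add_apply, Pi.smul_apply, smul_eq_mul, EE, ck]
    field_simp
  rw [Finset.sum_congr rfl h2, Finset.sum_add_distrib, tel, hk_vanish (L.length + 1) L (by omega),
    ← Finset.sum_apply, ← EE_sum]
  have h3 : EE (∑ k ∈ Finset.range (L.length + 1), ck k • hk (k + 1)) L = EE WW L := by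
    have := lg_stable (n := L.length + 1) (L := L) (by omega)
    unfold lg at this
    simp only [EE]
    rw [this]
  rw [h3]
  simp [hk]

end Vale.Agent.P269.H707
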