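import Vale.Agent.P269.H207.Defs
import Vale.Agent.P269.H207.Quad
import Vale.Agent.P269.H707.Num2

/-! # Cup products and the degree zero Gromov-Witten system of a target (helper707) -/

set_option autoImplicit false

namespace Vale.Agent.P269.H707

open Vale.Agent.P269.H207 Matrix

/-- The cup product of a target, in the chosen basis. -/
structure CupAlg (X : Target) where
  /-- `φ_a φ_b = ∑_c rm b a c φ_c`: the matrix of right multiplication by `φ_b` -/
  rm : X.ι → Matrix X.ι X.ι ℂ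
  /-- `tr c = ∫ φ_c` -/
  tr : X.ι → ℂ
  /-- associativity and graded commutativity: `(v φ_a) φ_b = (-1)^{|a||b|} (v φ_b) φ_a` -/
  rm_comm : ∀ a b, rm a * rm b = ((-1 : ℂ) ^ ((X.p a + X.q a) * (X.p b + X.q b))) • (rm b * rm a)
  rm_one : rm X.one = 1
  /-- `1 φ_a = φ_a` -/
  one_rm : ∀ a, rm a X.one = Pi.single a 1
  /-- `∫ φ_a φ_c = η a c` -/
  eta_eq : ∀ a c, ∑ b, rm c a b * tr b = X.η a c
  /-- `v (c_1 φ_a) = (v c_1) φ_a` -/
  rm_R : ∀ a, ∑ b, X.R a b • rm b = X.R * rm a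
  /-- `(v c_1) φ_a = (v φ_a) c_1` -/
  R_comm : ∀ a, X.R * rm a = rm a * X.R
  rm_type : ∀ a b c, rm b a c ≠ 0 → X.p c = X.p a + X.p b ∧ X.q c = X.q a + X.q b
  tr_type : ∀ a, tr a ≠ 0 → X.p a = X.D ∧ X.q a = X.D

variable {X : Target} (A : CupAlg X)

/-- `∫ κ φ_{a₁} ⋯ φ_{aₙ}` -/
noncomputable def ig (κ : X.ι → ℂ) : List X.V → ℂ
  | [] => ∑ a, κ a * A.tr a
  | x :: L => ig (κ ᵥ* A.rm x.2) L

theorem ig_cons (κ : X.ι → ℂ) (x : X.V) (L : List X.V) :
    ig A κ (x :: L) = ig A (κ ᵥ* A.rm x.2) L := rfl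

theorem dd_ig (κ : X.ι → ℂ) (x : X.V) : dd x (ig A κ) = ig A (κ ᵥ* A.rm x.2) := rfl

theorem ig_add (κ κ' : X.ι → ℂ) : ig A (κ + κ') = ig A κ + ig A κ' := by
  funext L
  induction L generalizing κ κ' with
  | nil => simp [ig, add_mul, Finset.sum_add_distrib]
  | cons x L ih => rw [ig_cons, Matrix.add_vecMul, ih]; rfl

theorem ig_smul (c : ℂ) (κ : X.ι → ℂ) : ig A (c • κ) = c • ig A κ := by
  funext L
  induction L generalizing κ with
  | nil => simp [ig, Finset.mul_sum, mul_assoc]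
  | cons x L ih => rw [ig_cons, Matrix.smul_vecMul, ih]; rfl

theorem ig_zero : ig A 0 = 0 := by
  have := ig_smul A 0 0
  simpa using this

theorem ig_sum {ι' : Type*} (s : Finset ι') (κ : ι' → X.ι → ℂ) :
    ig A (∑ i ∈ s, κ i) = ∑ i ∈ s, ig A (κ i) := by
  classical
  induction s using Finset.induction_on with
  | empty => simp [ig_zero]
  | insert a s ha ih => rw [Finset.sum_insert ha, Finset.sum_insert ha, ig_add, ih]

theorem ig_symm (κ : X.ι → ℂ) : SSym X.par (ig A κ) := by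
  intro K
  induction K generalizing κ with
  | nil =>
    intro x y L
    simp only [List.nil_append, ig_cons, Matrix.vecMul_vecMul]
    rw [A.rm_comm, Matrix.vecMul_smul, ig_smul]
    rfl
  | cons k K ih =>
    intro x y L
    simp only [List.cons_append, ig_cons]
    exact ih _ x y L

theorem ig_type {κ : X.ι → ℂ} {r s : ℕ} (hκ : ∀ a, κ a ≠ 0 → X.p a = r ∧ X.q a = s)
    {L : List X.V} (h : ig A κ L ≠ 0) :
    r + (L.map fun x => X.p x.2).sum = X.D ∧ s + (L.map fun x => X.q x.2).sum = X.D := by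
  induction L generalizing κ r s with
  | nil =>
    obtain ⟨a, _, ha⟩ := Finset.exists_ne_zero_of_sum_ne_zero h
    have h1 := hκ a (left_ne_zero_of_mul ha)
    have h2 := A.tr_type a (right_ne_zero_of_mul ha)
    simp only [List.map_nil, List.sum_nil, add_zero]
    exact ⟨h1.1.symm.trans h2.1, h1.2.symm.trans h2.2⟩
  | cons x L ih =>
    rw [ig_cons] at h
    have := ih (κ := κ ᵥ* A.rm x.2) (r := r + X.p x.2) (s := s + X.q x.2) (by
      intro b hb
      obtain ⟨a, _, ha⟩ := Finset.exists_ne_zero_of_sum_ne_zero hb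
      have h1 := hκ a (left_ne_zero_of_mul ha)
      have h2 := A.rm_type a x.2 b (right_ne_zero_of_mul ha)
      rw [h1.1] at h2
      rw [h1.2] at h2
      exact h2) h
    simp only [List.map_cons, List.sum_cons]
    omega

/-- product of a numeric function and a cup product -/
noncomputable def gf (n : List ℕ → ℂ) (κ : X.ι → ℂ) : List X.V → ℂ :=
  fun L => n (L.map Prod.fst) * ig A κ L

theorem dd_gf (n : List ℕ → ℂ) (κ : X.ι → ℂ) (x : X.V) :
    dd x (gf A n κ) = gf A (dd x.1 n) (κ ᵥ* A.rm x.2) := rfl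

theorem gf_symm {n : List ℕ → ℂ} (hn : Symm n) (κ : X.ι → ℂ) : SSym X.par (gf A n κ) := by
  intro K x y L
  simp only [gf]
  rw [ig_symm A κ K x y L]
  have : n (List.map Prod.fst (K ++ x :: y :: L)) = n (List.map Prod.fst (K ++ y :: x :: L)) := by
    simpa using hn (K.map Prod.fst) x.1 y.1 (L.map Prod.fst)
  rw [this]
  ring

theorem low_gf (n : List ℕ → ℂ) (κ : X.ι → ℂ) (L : List X.V) :
    low X L (gf A n κ) = DD n (L.map Prod.fst) * ig A κ L := by
  induction L generalizing n κ with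
  | nil => simp [low]
  | cons x L ih =>
    obtain ⟨m, a⟩ := x
    simp only [low, dd_gf, ih, List.map_cons, DD_cons, ig_cons]
    split_ifs with h
    · ring
    · simp only [gf, List.map_cons, ig_cons]
      ring

theorem lowR_gf (n : List ℕ → ℂ) (κ : X.ι → ℂ) (L : List X.V) :
    lowR X L (gf A n κ) = DD n (L.map Prod.fst) * ig A (κ ᵥ* X.R) L := by
  induction L generalizing n κ with
  | nil => simp [lowR]
  | cons x L ih =>
    obtain ⟨m, a⟩ := x
    simp only [lowR, dd_gf, ih, List.map_cons, DD_cons, ig_cons, Matrix.vecMul_vecMul]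
    rw [A.R_comm]
    have h1 : ∑ b, X.R a b * gf A n κ ((m - 1, b) :: L) =
        n ((m - 1) :: L.map Prod.fst) * ig A (κ ᵥ* (A.rm a * X.R)) L := by
      rw [← A.R_comm, ← A.rm_R, Matrix.vecMul_sum, ig_sum, Finset.sum_apply, Finset.mul_sum]
      apply Finset.sum_congr rfl
      intro b _
      rw [Matrix.vecMul_smul, ig_smul]
      simp only [gf, List.map_cons, ig_cons, Pi.smul_apply, smul_eq_mul]
      ring
    rw [h1]
    split_ifs with h
    · ring
    · ring

theorem sum_R_gf (n : List ℕ → ℂ) (κ : X.ι → ℂ) (L : List X.V) :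
    ∑ b, X.R X.one b * gf A n κ ((0, b) :: L) = dd 0 n (L.map Prod.fst) * ig A (κ ᵥ* X.R) L := by
  have h1 : κ ᵥ* X.R = κ ᵥ* (X.R * A.rm X.one) := by rw [A.rm_one, mul_one]
  rw [h1, ← A.rm_R, Matrix.vecMul_sum, ig_sum, Finset.sum_apply, Finset.mul_sum]
  apply Finset.sum_congr rfl
  intro b _
  rw [Matrix.vecMul_smul, ig_smul]
  simp only [gf, List.map_cons, ig_cons, Pi.smul_apply, smul_eq_mul, dd_apply]
  ring

theorem gf_smul (c : ℂ) (n : List ℕ → ℂ) (κ : X.ι → ℂ) : gf A n (c • κ) = c • gf A n κ := by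
  funext L
  simp only [gf, ig_smul, Pi.smul_apply, smul_eq_mul]
  ring

theorem eta_inv_par (X : Target) (c c' : X.ι) (h : X.η⁻¹ c c' ≠ 0) :
    (X.p c + X.q c) % 2 = (X.p c' + X.q c') % 2 := by
  classical
  let S : Matrix X.ι X.ι ℂ := Matrix.diagonal fun a => (-1 : ℂ) ^ (X.p a + X.q a)
  have hSS : S * S = 1 := by
    simp only [S, Matrix.diagonal_mul_diagonal]
    rw [← Matrix.diagonal_one]
    congr 1
    funext a
    rw [← pow_add]
    exact Even.neg_one_pow ⟨_, rfl⟩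
  have hcomm : X.η * S = S * X.η := by
    ext a b
    simp only [S, Matrix.mul_diagonal, Matrix.diagonal_mul]
    by_cases h0 : X.η a b = 0
    · rw [h0]; ring
    · have := X.η_type a b h0
      have h2 : (-1 : ℂ) ^ (X.p a + X.q a) = (-1) ^ (X.p b + X.q b) := by
        apply neg_one_pow_mod
        omega
      rw [h2]; ring
  have hinv : X.η * (S * X.η⁻¹ * S) = 1 := by
    rw [← mul_assoc, ← mul_assoc, hcomm, mul_assoc S, Matrix.mul_nonsing_inv _ X.η_nondeg,
      mul_one, hSS]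
  have h3 : X.η⁻¹ = S * X.η⁻¹ * S := Matrix.inv_eq_right_inv hinv
  have h4 := congrFun (congrFun h3 c) c'
  simp only [S, Matrix.mul_diagonal, Matrix.diagonal_mul] at h4
  by_contra hne
  have h5 : (-1 : ℂ) ^ (X.p c + X.q c) * (-1) ^ (X.p c' + X.q c') = -1 := by
    rw [← pow_add]
    apply Odd.neg_one_pow
    rw [Nat.odd_iff]
    omega
  have h6 : X.η⁻¹ c c' = - X.η⁻¹ c c' := by
    calc X.η⁻¹ c c' = (-1 : ℂ) ^ (X.p c + X.q c) * X.η⁻¹ c c' * (-1) ^ (X.p c' + X.q c') := h4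
      _ = ((-1 : ℂ) ^ (X.p c + X.q c) * (-1) ^ (X.p c' + X.q c')) * X.η⁻¹ c c' := by ring
      _ = _ := by rw [h5]; ring
  apply h
  linear_combination h6 / 2

/-- the splitting lemma -/
theorem split (μ ν : List ℕ → ℂ) (v : X.ι → ℂ) (P : Matrix X.ι X.ι ℂ) (π : ℕ)
    (hP : ∀ z, A.rm z * P = ((-1 : ℂ) ^ (π * (X.p z + X.q z))) • (P * A.rm z)) (L : List X.V) :
    ∑ c : X.ι, ∑ c' : X.ι, X.η⁻¹ c c' *
      smul2 X.par (tw X.par (X.par (0, c') + π) (gf A μ (v ᵥ* A.rm c))) (gf A ν (P c')) L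
      = pr μ ν (L.map Prod.fst) * ig A (v ᵥ* P) L := by
  classical
  induction L generalizing μ ν v P π with
  | nil =>
    have h1 : ∀ c, ∑ b, (v ᵥ* A.rm c) b * A.tr b = (v ᵥ* X.η) c := by
      intro c
      change (v ᵥ* A.rm c) ⬝ᵥ A.tr = v ⬝ᵥ fun a => X.η a c
      rw [← Matrix.dotProduct_mulVec]
      congr 1
      funext a
      exact A.eta_eq a c
    have h2 : ∀ c', ∑ c, (v ᵥ* X.η) c * X.η⁻¹ c c' = v c' := by
      intro c'
      change (v ᵥ* X.η ᵥ* X.η⁻¹) c' = v c'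
      rw [Matrix.vecMul_vecMul, Matrix.mul_nonsing_inv _ X.η_nondeg, Matrix.vecMul_one]
    have h3 : ∑ b, (v ᵥ* P) b * A.tr b = ∑ c', v c' * ∑ b, P c' b * A.tr b := by
      change (v ᵥ* P) ⬝ᵥ A.tr = v ⬝ᵥ fun c' => P c' ⬝ᵥ A.tr
      rw [← Matrix.dotProduct_mulVec]
      rfl
    simp only [smul2_nil, tw_apply, parL_nil, mul_zero, pow_zero, one_mul, gf, List.map_nil, ig,
      pr_nil, h1, h3]
    rw [Finset.sum_comm, Finset.mul_sum]
    apply Finset.sum_congr rfl
    intro c' _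
    rw [← h2 c']
    generalize ∑ b, P c' b * A.tr b = T
    rw [Finset.sum_mul, Finset.mul_sum]
    apply Finset.sum_congr rfl
    intro c _
    ring
  | cons z L ih =>
    have i1 := ih (dd z.1 μ) ν (v ᵥ* A.rm z.2) P π hP
    have i2 := ih μ (dd z.1 ν) v (P * A.rm z.2) (π + X.par z) (by
      intro y
      rw [← mul_assoc, hP y, Matrix.smul_mul, mul_assoc, A.rm_comm y z.2, Matrix.mul_smul,
        smul_smul, ← mul_assoc]
      congr 1
      rw [← pow_add]
      congr 1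
      simp only [Target.par]
      ring)
    rw [List.map_cons, pr_cons, ig_cons, add_mul]
    have e2 : ig A (v ᵥ* P ᵥ* A.rm z.2) L = ig A (v ᵥ* (P * A.rm z.2)) L := by
      rw [Matrix.vecMul_vecMul]
    rw [show pr μ (dd z.1 ν) (List.map Prod.fst L) * ig A (v ᵥ* P ᵥ* A.rm z.2) L =
      pr μ (dd z.1 ν) (List.map Prod.fst L) * ig A (v ᵥ* (P * A.rm z.2)) L by rw [e2], ← i2]
    have e3 : ig A (v ᵥ* P ᵥ* A.rm z.2) L =
        ((-1 : ℂ) ^ (π * X.par z)) * ig A (v ᵥ* A.rm z.2 ᵥ* P) L := by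
      rw [Matrix.vecMul_vecMul, Matrix.vecMul_vecMul, hP z.2, Matrix.vecMul_smul, ig_smul,
        Pi.smul_apply, smul_eq_mul, ← mul_assoc, ← pow_add]
      have : (-1 : ℂ) ^ (π * X.par z + π * (X.p z.2 + X.q z.2)) = 1 :=
        Even.neg_one_pow ⟨π * X.par z, rfl⟩
      rw [this, one_mul]
    rw [e3, show pr (dd z.1 μ) ν (List.map Prod.fst L) *
      (((-1 : ℂ) ^ (π * X.par z)) * ig A (v ᵥ* A.rm z.2 ᵥ* P) L) = ((-1 : ℂ) ^ (π * X.par z)) *
      (pr (dd z.1 μ) ν (List.map Prod.fst L) * ig A (v ᵥ* A.rm z.2 ᵥ* P) L) by ring, ← i1,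
      Finset.mul_sum, ← Finset.sum_add_distrib]
    apply Finset.sum_congr rfl
    intro c _
    rw [Finset.mul_sum, ← Finset.sum_add_distrib]
    apply Finset.sum_congr rfl
    intro c' _
    by_cases hη : X.η⁻¹ c c' = 0
    · rw [hη]; ring
    have hpar := eta_inv_par X c c' hη
    rw [smul2_cons, dd_tw, dd_gf, dd_gf, smul2_smul_left, Pi.smul_apply, smul_eq_mul, tw_tw]
    have f1 : v ᵥ* A.rm c ᵥ* A.rm z.2 = ((-1 : ℂ) ^ ((X.p c + X.q c) * X.par z)) •
        (v ᵥ* A.rm z.2 ᵥ* A.rm c) := by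
      rw [Matrix.vecMul_vecMul, A.rm_comm, Matrix.vecMul_smul, Matrix.vecMul_vecMul]
      rfl
    have f2 : X.par z + (X.par (0, c') + π) = X.par (0, c') + (π + X.par z) := by ring
    have f3 : P c' ᵥ* A.rm z.2 = (P * A.rm z.2) c' := rfl
    rw [f1, f2, f3, gf_smul, tw_smul, smul2_smul_left, Pi.smul_apply, smul_eq_mul]
    have f4 : (-1 : ℂ) ^ ((X.par (0, c') + π) * X.par z) * (-1) ^ ((X.p c + X.q c) * X.par z) =
        (-1) ^ (π * X.par z) := by
      rw [← pow_add]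
      apply neg_one_pow_mod
      have : (X.par (0, c') + π) * X.par z + (X.p c + X.q c) * X.par z =
        (X.par (0, c') + (X.p c + X.q c)) * X.par z + π * X.par z := by ring
      rw [this, Nat.add_mod, Nat.mul_mod]
      have h0 : (X.par (0, c') + (X.p c + X.q c)) % 2 = 0 := by
        simp only [Target.par]
        omega
      rw [h0]
      simp
    linear_combination (X.η⁻¹ c c' * smul2 X.par (tw X.par (X.par (0, c') + π)
      (gf A (dd z.1 μ) (v ᵥ* A.rm z.2 ᵥ* A.rm c))) (gf A ν (P c')) L) * f4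

end Vale.Agent.P269.H707
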