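import Vale.Agent.P269.H707.Deg0
import Vale.Agent.P269.H707.CITarget

/-! # The cup product of a complete intersection (helper707) -/

set_option autoImplicit false

namespace Vale.Agent.P269.H707

open Vale.Agent.P269.H207 Matrix

/-- right multiplication by `h^j` -/
noncomputable def ciH (D : ℕ) (ds : List ℕ) (j : ℕ) : CIIdx D ds → CIIdx D ds → ℂ
  | Sum.inl i, Sum.inl k => if (k : ℕ) = i + j then 1 else 0
  | Sum.inr α, Sum.inr γ => if j = 0 ∧ γ = α then 1 else 0
  | _, _ => 0

/-- right multiplication by the primitive class `β` -/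
noncomputable def ciT (D : ℕ) (ds : List ℕ) (β : Σ p : Fin (D + 1), Fin (hprim D ds p)) :
    CIIdx D ds → CIIdx D ds → ℂ
  | Sum.inl i, Sum.inr γ => if (i : ℕ) = 0 ∧ γ = β then 1 else 0
  | Sum.inr α, Sum.inl k =>
      if (k : ℕ) = D then ciEta D ds (Sum.inr α) (Sum.inr β) / (ds.prod : ℂ) else 0
  | _, _ => 0

/-- The cup product: `ciMul b a c` is the coefficient of `φ_c` in `φ_a φ_b`:
`h^i h^j = h^{i+j}`, `h^i α = 0` for `i ≥ 1` and `α` primitive,
`α β = (∫ α β / ∏ d_j) h^D` for `α`, `β` primitive. -/
noncomputable def ciMul (D : ℕ) (ds : List ℕ) : CIIdx D ds → CIIdx D ds → CIIdx D ds → ℂ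
  | Sum.inl j => ciH D ds j
  | Sum.inr β => ciT D ds β

/-- integration over `X`: `∫ h^D = ∏ d_j` -/
noncomputable def ciTr (D : ℕ) (ds : List ℕ) : CIIdx D ds → ℂ
  | Sum.inl k => if (k : ℕ) = D then (ds.prod : ℂ) else 0
  | Sum.inr _ => 0

theorem ciH_zero (D : ℕ) (ds : List ℕ) : Matrix.of (ciH D ds 0) = 1 := by
  ext a c
  rcases a with i | a <;> rcases c with j | c
  · simp only [Matrix.of_apply, ciH, add_zero, Matrix.one_apply, Sum.inl.injEq]
    have : ((j : ℕ) = i) ↔ (i = j) := by rw [Fin.ext_iff]; exact eq_comm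
    simp only [this]
  · simp [ciH]
  · simp [ciH]
  · simp only [Matrix.of_apply, ciH, true_and, Matrix.one_apply, Sum.inr.injEq]
    have : (c = a) ↔ (a = c) := eq_comm
    simp only [this]

theorem ciH_mul (D : ℕ) (ds : List ℕ) (i j : ℕ) :
    Matrix.of (ciH D ds i) * Matrix.of (ciH D ds j) = Matrix.of (ciH D ds (i + j)) := by
  ext a c
  rw [Matrix.mul_apply, Fintype.sum_sum_type]
  rcases a with a | a <;> rcases c with c | c
  · simp only [Matrix.of_apply, ciH, zero_mul, Finset.sum_const_zero, add_zero]
    by_cases h : (a : ℕ) + i ≤ D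
    · rw [Finset.sum_eq_single (⟨a + i, by omega⟩ : Fin (D + 1))]
      · simp only [if_true, one_mul, add_assoc]
      · intro b _ hb
        rw [if_neg, zero_mul]
        intro h'
        apply hb
        ext
        exact h'
      · intro h'
        exact absurd (Finset.mem_univ _) h'
    · rw [if_neg (by omega)]
      apply Finset.sum_eq_zero
      intro b _
      rw [if_neg (by omega), zero_mul]
  · simp [ciH]
  · simp [ciH]
  · simp only [Matrix.of_apply, ciH, zero_mul, Finset.sum_const_zero, zero_add]
    by_cases hi : i = 0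
    · subst hi
      rw [Finset.sum_eq_single a]
      · simp
      · intro b _ hb
        rw [if_neg (by tauto), zero_mul]
      · intro h'
        exact absurd (Finset.mem_univ _) h'
    · rw [if_neg (by omega)]
      apply Finset.sum_eq_zero
      intro b _
      rw [if_neg (by tauto), zero_mul]

theorem ciH_T (D : ℕ) (ds : List ℕ) (j : ℕ) (hj : j ≠ 0) (β) :
    Matrix.of (ciH D ds j) * Matrix.of (ciT D ds β) = 0 := by
  ext a c
  rw [Matrix.mul_apply, Fintype.sum_sum_type]
  rcases a with a | a <;> rcases c with c | c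
  · simp [ciH, ciT]
  · simp only [Matrix.of_apply, ciH, ciT, zero_mul, Finset.sum_const_zero, add_zero,
      Matrix.zero_apply]
    apply Finset.sum_eq_zero
    intro b _
    by_cases h : (b : ℕ) = a + j
    · rw [if_neg (by omega : ¬ ((b : ℕ) = 0 ∧ c = β)), mul_zero]
    · rw [if_neg h, zero_mul]
  · simp [ciH, ciT, hj]
  · simp [ciH, ciT, hj]

theorem ciT_H (D : ℕ) (ds : List ℕ) (j : ℕ) (hj : j ≠ 0) (β) :
    Matrix.of (ciT D ds β) * Matrix.of (ciH D ds j) = 0 := by
  ext a c
  rw [Matrix.mul_apply, Fintype.sum_sum_type]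
  rcases a with a | a <;> rcases c with c | c
  · simp [ciH, ciT]
  · simp [ciH, ciT, hj]
  · simp only [Matrix.of_apply, ciH, ciT, zero_mul, Finset.sum_const_zero, add_zero,
      Matrix.zero_apply]
    apply Finset.sum_eq_zero
    intro b _
    by_cases h : (b : ℕ) = D
    · rw [if_neg (by omega : ¬ ((c : ℕ) = b + j)), mul_zero]
    · rw [if_neg h, zero_mul]
  · simp [ciH, ciT, hj]

theorem ciT_T (D : ℕ) (hD : 1 ≤ D) (ds : List ℕ) (α β) (a c : CIIdx D ds) :
    (Matrix.of (ciT D ds α) * Matrix.of (ciT D ds β)) a c =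
      match a, c with
      | Sum.inl i, Sum.inl k => if (i : ℕ) = 0 ∧ (k : ℕ) = D then
          ciEta D ds (Sum.inr α) (Sum.inr β) / (ds.prod : ℂ) else 0
      | _, _ => 0 := by
  rw [Matrix.mul_apply, Fintype.sum_sum_type]
  rcases a with a | a <;> rcases c with c | c
  · simp only [Matrix.of_apply, ciT, zero_mul, Finset.sum_const_zero, zero_add]
    by_cases ha : (a : ℕ) = 0
    · rw [Finset.sum_eq_single α]
      · simp [ha]
      · intro b _ hb
        rw [if_neg (by tauto), zero_mul]
      · intro h'
        exact absurd (Finset.mem_univ _) h'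
    · rw [if_neg (by tauto)]
      apply Finset.sum_eq_zero
      intro b _
      rw [if_neg (by tauto), zero_mul]
  · simp [ciT]
  · simp [ciT]
  · simp only [Matrix.of_apply, ciT, zero_mul, Finset.sum_const_zero, add_zero]
    apply Finset.sum_eq_zero
    intro b _
    by_cases h : (b : ℕ) = D
    · rw [if_neg (by omega : ¬ ((b : ℕ) = 0 ∧ c = β)), mul_zero]
    · rw [if_neg h, zero_mul]

theorem ciR_eq (D : ℕ) (ds : List ℕ) :
    Matrix.of (ciR D ds) = (ciC1 D ds : ℂ) • Matrix.of (ciH D ds 1) := by
  ext a c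
  rcases a with a | a <;> rcases c with c | c
  · simp [ciR, ciH]
  · simp [ciR, ciH]
  · simp [ciR, ciH]
  · simp [ciR, ciH]

theorem prod_ne (ds : List ℕ) (hds : ∀ d ∈ ds, 1 ≤ d) : (ds.prod : ℂ) ≠ 0 := by
  have : ds.prod ≠ 0 := by
    intro h
    rw [List.prod_eq_zero_iff] at h
    exact absurd (hds 0 h) (by norm_num)
  exact_mod_cast this

theorem ciMul_one (D : ℕ) (ds : List ℕ) (a : CIIdx D ds) :
    ciMul D ds a (Sum.inl 0) = Pi.single a 1 := by
  funext c
  rcases a with i | α <;> rcases c with k | γ
  · simp only [ciMul, ciH]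
    by_cases h : k = i
    · subst h
      rw [Pi.single_eq_same]
      simp
    · rw [Pi.single_eq_of_ne (by simpa using h), if_neg]
      intro h'
      apply h
      ext
      simpa using h'
  · simp [ciMul, ciH]
  · simp [ciMul, ciT]
  · simp only [ciMul, ciT]
    by_cases h : γ = α
    · subst h
      rw [Pi.single_eq_same]
      simp
    · rw [Pi.single_eq_of_ne (by simpa using h), if_neg (by tauto)]

/-- The cup product algebra of a complete intersection -/
noncomputable def ciAlg (D : ℕ) (ds : List ℕ) (hD : 2 ≤ D) (hds : ∀ d ∈ ds, 1 ≤ d) :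
    CupAlg (ciTarget D ds hD hds) where
  rm := fun b => Matrix.of (ciMul D ds b)
  tr := ciTr D ds
  rm_comm := by
    intro a b
    change Matrix.of (ciMul D ds a) * Matrix.of (ciMul D ds b) =
      ((-1 : ℂ) ^ ((ciP D ds a + ciQ D ds a) * (ciP D ds b + ciQ D ds b))) •
        (Matrix.of (ciMul D ds b) * Matrix.of (ciMul D ds a))
    rcases a with i | α <;> rcases b with j | β
    · simp only [ciMul, ciH_mul, ciP, ciQ]
      rw [Even.neg_one_pow ⟨(i : ℕ) * (j + j), by ring⟩, one_smul, add_comm]
    · simp only [ciMul, ciP, ciQ]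
      by_cases hi : (i : ℕ) = 0
      · rw [hi, ciH_zero]
        simp
      · rw [ciH_T _ _ _ hi, ciT_H _ _ _ hi, smul_zero]
    · simp only [ciMul, ciP, ciQ]
      by_cases hi : (j : ℕ) = 0
      · rw [hi, ciH_zero]
        simp
      · rw [ciH_T _ _ _ hi, ciT_H _ _ _ hi, smul_zero]
    · simp only [ciMul]
      ext a c
      rw [Matrix.smul_apply, ciT_T D (by omega), ciT_T D (by omega)]
      have h := ciEta_symm D ds (Sum.inr α) (Sum.inr β)
      rcases a with a | a <;> rcases c with c | c
      · simp only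
        split_ifs
        · rw [h, smul_eq_mul]
          ring
        · simp
      · simp
      · simp
      · simp
  rm_one := by
    change Matrix.of (ciMul D ds (Sum.inl 0)) = 1
    simp only [ciMul]
    exact ciH_zero D ds
  one_rm := fun a => ciMul_one D ds a
  eta_eq := by
    intro a c
    change ∑ b : CIIdx D ds, ciMul D ds c a b * ciTr D ds b = ciEta D ds a c
    have hp := prod_ne ds hds
    rw [Fintype.sum_sum_type]
    have h2 : ∑ b : (Σ p : Fin (D + 1), Fin (hprim D ds p)), ciMul D ds c a (Sum.inr b) *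
        ciTr D ds (Sum.inr b) = 0 := by
      apply Finset.sum_eq_zero
      intro b _
      simp [ciTr]
    have h1 : ∑ b : Fin (D + 1), ciMul D ds c a (Sum.inl b) * ciTr D ds (Sum.inl b) =
        ciMul D ds c a (Sum.inl ⟨D, by omega⟩) * (ds.prod : ℂ) := by
      rw [Finset.sum_eq_single (⟨D, by omega⟩ : Fin (D + 1))]
      · simp [ciTr]
      · intro b _ hb
        have : (b : ℕ) ≠ D := by
          intro h
          apply hb
          ext
          exact h
        simp [ciTr, this]
      · intro h'
        exact absurd (Finset.mem_univ _) h'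
    rw [h1, h2, add_zero]
    rcases a with i | α <;> rcases c with k | γ
    · simp only [ciMul, ciH, ciEta]
      by_cases h : (i : ℕ) + k = D
      · rw [if_pos h, if_pos h.symm, one_mul]
      · rw [if_neg h, if_neg (fun h' => h h'.symm), zero_mul]
    · simp [ciMul, ciT, ciEta]
    · simp [ciMul, ciH, ciEta]
    · simp only [ciMul, ciT, if_true]
      field_simp
  rm_R := by
    intro a
    change ∑ b : CIIdx D ds, ciR D ds a b • Matrix.of (ciMul D ds b) =
      Matrix.of (ciR D ds) * Matrix.of (ciMul D ds a)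
    rw [ciR_eq, Fintype.sum_sum_type]
    rcases a with i | α
    · simp only [ciR, ciMul, zero_smul, Finset.sum_const_zero, add_zero]
      rw [Matrix.smul_mul, ciH_mul]
      by_cases h : (i : ℕ) + 1 ≤ D
      · rw [Finset.sum_eq_single (⟨i + 1, by omega⟩ : Fin (D + 1))]
        · simp only [if_true]
          rw [add_comm]
        · intro b _ hb
          rw [if_neg, zero_smul]
          intro h'
          apply hb
          ext
          exact h'
        · intro h'
          exact absurd (Finset.mem_univ _) h'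
      · have hz : Matrix.of (ciH D ds (1 + i)) = 0 := by
          ext a c
          rcases a with a | a <;> rcases c with c | c
          · simp only [Matrix.of_apply, ciH, Matrix.zero_apply]
            rw [if_neg (by omega)]
          · simp [ciH]
          · simp [ciH]
          · simp [ciH]
        rw [hz, smul_zero]
        apply Finset.sum_eq_zero
        intro b _
        rw [if_neg (by omega), zero_smul]
    · simp only [ciR, ciMul, zero_smul, Finset.sum_const_zero, add_zero]
      rw [Matrix.smul_mul, ciH_T _ _ _ one_ne_zero, smul_zero]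
  R_comm := by
    intro a
    change Matrix.of (ciR D ds) * Matrix.of (ciMul D ds a) =
      Matrix.of (ciMul D ds a) * Matrix.of (ciR D ds)
    rw [ciR_eq, Matrix.smul_mul, Matrix.mul_smul]
    rcases a with i | α
    · simp only [ciMul]
      rw [ciH_mul, ciH_mul, add_comm]
    · simp only [ciMul]
      rw [ciH_T _ _ _ one_ne_zero, ciT_H _ _ _ one_ne_zero]
  rm_type := by
    intro a b c h
    change ciMul D ds b a c ≠ 0 at h
    change ciP D ds c = ciP D ds a + ciP D ds b ∧ ciQ D ds c = ciQ D ds a + ciQ D ds b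
    rcases b with j | β <;> rcases a with i | α <;> rcases c with k | γ
    · simp only [ciMul, ciH] at h
      have h' : (k : ℕ) = i + j := by
        by_contra hc
        exact h (if_neg hc)
      exact ⟨h', h'⟩
    · exact absurd rfl h
    · exact absurd rfl h
    · simp only [ciMul, ciH] at h
      have h' : (j : ℕ) = 0 ∧ γ = α := by
        by_contra hc
        exact h (if_neg hc)
      simp only [ciP, ciQ]
      rw [h'.1, h'.2]
      simp
    · exact absurd rfl h
    · simp only [ciMul, ciT] at h
      have h' : (i : ℕ) = 0 ∧ γ = β := by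
        by_contra hc
        exact h (if_neg hc)
      simp only [ciP, ciQ]
      rw [h'.1, h'.2]
      simp
    · simp only [ciMul, ciT] at h
      have h' : (k : ℕ) = D := by
        by_contra hc
        exact h (if_neg hc)
      rw [if_pos h'] at h
      have h2 : ciEta D ds (Sum.inr α) (Sum.inr β) ≠ 0 := by
        intro h3
        rw [h3, zero_div] at h
        exact h rfl
      have h3 := ciEta_type D ds _ _ h2
      simp only [ciP, ciQ] at h3 ⊢
      omega
    · exact absurd rfl h
  tr_type := by
    intro a h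
    change ciTr D ds a ≠ 0 at h
    change ciP D ds a = D ∧ ciQ D ds a = D
    rcases a with i | α
    · simp only [ciTr] at h
      have h' : (i : ℕ) = D := by
        by_contra hc
        exact h (if_neg hc)
      exact ⟨h', h'⟩
    · exact absurd rfl h

/-- the point class `h^D/∏ d_j` -/
noncomputable def ciPt (D : ℕ) (ds : List ℕ) : CIIdx D ds → ℂ
  | Sum.inl k => if (k : ℕ) = D then ((ds.prod : ℂ))⁻¹ else 0
  | Sum.inr _ => 0

/-- the class `c_{D-1}(X) = (∫ c_{D-1} h / ∏ d_j) h^{D-1}` -/
noncomputable def ciCD1 (D : ℕ) (ds : List ℕ) : CIIdx D ds → ℂ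
  | Sum.inl k => if (k : ℕ) + 1 = D then
      (chernNum (D + ds.length) ds (D - 1) : ℂ) / (ds.prod : ℂ) else 0
  | Sum.inr _ => 0

theorem ciPt_tr (D : ℕ) (ds : List ℕ) (hds : ∀ d ∈ ds, 1 ≤ d) :
    ∑ a, ciPt D ds a * ciTr D ds a = 1 := by
  have hp := prod_ne ds hds
  rw [Fintype.sum_sum_type, Finset.sum_eq_single (⟨D, by omega⟩ : Fin (D + 1))]
  · simp only [ciPt, ciTr, if_true, mul_zero, Finset.sum_const_zero, add_zero]
    exact inv_mul_cancel₀ hp
  · intro b _ hb
    have : (b : ℕ) ≠ D := by
      intro h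
      apply hb
      ext
      exact h
    simp [ciPt, this]
  · intro h'
    exact absurd (Finset.mem_univ _) h'

theorem ciCD1_c1 (D : ℕ) (hD : 1 ≤ D) (ds : List ℕ) (hds : ∀ d ∈ ds, 1 ≤ d) :
    ∑ a, (ciCD1 D ds ᵥ* Matrix.of (ciR D ds)) a * ciTr D ds a = (ciC1CD1 D ds : ℂ) := by
  have hp := prod_ne ds hds
  rw [Fintype.sum_sum_type, Finset.sum_eq_single (⟨D, by omega⟩ : Fin (D + 1))]
  · have h1 : (ciCD1 D ds ᵥ* Matrix.of (ciR D ds)) (Sum.inl ⟨D, by omega⟩) =
        (ciC1 D ds : ℂ) * (chernNum (D + ds.length) ds (D - 1) : ℂ) / (ds.prod : ℂ) := by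
      rw [Matrix.vecMul, dotProduct, Fintype.sum_sum_type,
        Finset.sum_eq_single (⟨D - 1, by omega⟩ : Fin (D + 1))]
      · simp only [ciCD1, Matrix.of_apply, ciR, zero_mul, Finset.sum_const_zero, add_zero]
        rw [if_pos (by omega), if_pos (by omega)]
        ring
      · intro b _ hb
        have : ¬ (b : ℕ) + 1 = D := by
          intro h
          apply hb
          ext
          simp only
          omega
        simp [ciCD1, this]
      · intro h'
        exact absurd (Finset.mem_univ _) h'
    rw [h1]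
    simp only [ciTr, if_true, mul_zero, Finset.sum_const_zero, add_zero]
    rw [ciC1CD1, Int.cast_mul]
    exact div_mul_cancel₀ _ hp
  · intro b _ hb
    have : (b : ℕ) ≠ D := by
      intro h
      apply hb
      ext
      exact h
    simp [ciTr, this]
  · intro h'
    exact absurd (Finset.mem_univ _) h'

/-- the point class and the class `c_{D-1}` -/
noncomputable def ciChern (D : ℕ) (ds : List ℕ) (hD : 2 ≤ D) (hds : ∀ d ∈ ds, 1 ≤ d) :
    ChernData (ciTarget D ds hD hds) (ciAlg D ds hD hds) where
  pt := ciPt D ds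
  cD1 := ciCD1 D ds
  pt_type := by
    intro a h
    change ciP D ds a = D ∧ ciQ D ds a = D
    rcases a with i | α
    · have h' : (i : ℕ) = D := by
        by_contra hc
        exact h (if_neg hc)
      exact ⟨h', h'⟩
    · exact absurd rfl h
  cD1_type := by
    intro a h
    change ciP D ds a = D - 1 ∧ ciQ D ds a = D - 1
    rcases a with i | α
    · have h' : (i : ℕ) + 1 = D := by
        by_contra hc
        exact h (if_neg hc)
      simp only [ciP, ciQ]
      omega
    · exact absurd rfl h
  pt_tr := ciPt_tr D ds hds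
  cD1_c1 := ciCD1_c1 D (by omega) ds hds

/-- The explicit Gromov-Witten system of a complete intersection with `h^0`-trivial positive degree
part. -/
noncomputable def ciGW (D : ℕ) (ds : List ℕ) (hD : 3 ≤ D) (hds : ∀ d ∈ ds, 1 ≤ d) (N : ℕ → ℂ) :
    ℕ → ℕ → List (ciTarget D ds (by omega) hds).V → ℂ :=
  gwDeg0 (ciAlg D ds (by omega) hds) (ciChern D ds (by omega) hds) N

theorem isGW_ciGW (D : ℕ) (ds : List ℕ) (hD : 3 ≤ D) (hds : ∀ d ∈ ds, 1 ≤ d) (N : ℕ → ℂ) :
    IsGW (ciTarget D ds (by omega) hds) (ciGW D ds hD hds N) :=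
  isGW_deg0 _ _ hD N

end Vale.Agent.P269.H707
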