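import Vale.Agent.P269.H707.HodgeDefs

/-! # The cohomology of a smooth complete intersection (helper707)

A smooth complete intersection `X` of dimension `D ≥ 2` and multidegree `ds` in `P^N`,
`N = D + ds.length`.  The basis of `H^*(X;ℂ)` consists of the powers `h^0, …, h^D` of the
hyperplane class and, for every `p ≤ D`, of `hprim D ds p` primitive classes of type `(p, D-p)`.
-/

set_option autoImplicit false

namespace Vale.Agent.P269.H707

/-- index set of the basis: `inl i` is `h^i`, `inr ⟨p, j⟩` is the `j`-th primitive class of type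
`(p, D - p)` -/
abbrev CIIdx (D : ℕ) (ds : List ℕ) : Type := Fin (D + 1) ⊕ (Σ p : Fin (D + 1), Fin (hprim D ds p))

/-- first Hodge index -/
def ciP (D : ℕ) (ds : List ℕ) : CIIdx D ds → ℕ
  | Sum.inl i => i
  | Sum.inr a => a.1

/-- second Hodge index -/
def ciQ (D : ℕ) (ds : List ℕ) : CIIdx D ds → ℕ
  | Sum.inl i => i
  | Sum.inr a => D - a.1

/-- Poincaré pairing: `∫ h^i h^{D-i} = ∏ d_j`, and the `j`-th primitive class of type `(p,D-p)` is
dual to the `j`-th primitive class of type `(D-p,p)`. -/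
def ciEta (D : ℕ) (ds : List ℕ) : CIIdx D ds → CIIdx D ds → ℂ
  | Sum.inl i, Sum.inl j => if (i : ℕ) + j = D then (ds.prod : ℂ) else 0
  | Sum.inr a, Sum.inr b => if (a.1 : ℕ) + b.1 = D ∧ (a.2 : ℕ) = b.2 then
      (if D % 2 = 1 ∧ (b.1 : ℕ) < a.1 then -1 else 1) else 0
  | _, _ => 0

/-- the degree of `c_1(X)`: `c_1(X) = (N + 1 - ∑ d_j) h` -/
def ciC1 (D : ℕ) (ds : List ℕ) : ℤ := (D : ℤ) + ds.length + 1 - (ds.map (fun d : ℕ => (d : ℤ))).sum

/-- cup product with `c_1(X)`: `h^i ↦ (N + 1 - ∑ d_j) h^{i+1}`, and `0` on primitive classes -/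
def ciR (D : ℕ) (ds : List ℕ) : CIIdx D ds → CIIdx D ds → ℂ
  | Sum.inl i, Sum.inl j => if (j : ℕ) = i + 1 then (ciC1 D ds : ℂ) else 0
  | _, _ => 0

/-- the Chern number `∫_X c_1(TX) c_{D-1}(TX)` of a complete intersection,
where `c(TX) = (1+h)^(N+1)/∏(1 + d_j h)` -/
noncomputable def ciC1CD1 (D : ℕ) (ds : List ℕ) : ℤ := ciC1 D ds * chernNum (D + ds.length) ds (D - 1)

end Vale.Agent.P269.H707
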