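import Vale.Agent.P269.H707.HodgeDefs

/-! # Hodge numbers and Chern numbers of complete intersections (helper707, part F)

`chiY N ds` : Hirzebruch's `χ_y`-genus of a complete intersection of multidegree `ds` in `P^N`,
as the coefficient of `z^N` in
`1/((1-z)(1+zy)) * ∏ ((1+zy)^d - (1-z)^d)/((1+zy)^d + y(1-z)^d)`.
-/

namespace Vale.Agent.P269.H707

open PowerSeries

noncomputable section

theorem hirzNum_spec (d : ℕ) :
    C (1 + yy) * hirzNum d = rr ^ d - (1 - X) ^ d := by
  have h := (Commute.all (rr) (1 - X : PowerSeries (Polynomial ℤ))).geom_sum₂_mul d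
  have h2 : (rr - (1 - X) : PowerSeries (Polynomial ℤ)) = C (1 + yy) * X := by
    simp only [rr, map_add, map_one]; ring
  rw [h2] at h
  rw [← h, hirzNum]; ring

@[simp] theorem hirzNum_zero : hirzNum 0 = 0 := by simp [hirzNum]

theorem hirzNum_succ (d : ℕ) : hirzNum (d + 1) = rr * hirzNum d + X * (1 - X) ^ d := by
  unfold hirzNum
  rw [Finset.sum_range_succ']
  have : ∀ k ∈ Finset.range d, rr ^ (k + 1) * (1 - X : PowerSeries (Polynomial ℤ)) ^ (d + 1 - 1 - (k + 1))
      = rr * (rr ^ k * (1 - X) ^ (d - 1 - k)) := by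
    intro k _
    have : d + 1 - 1 - (k + 1) = d - 1 - k := by omega
    rw [this]; ring
  rw [Finset.sum_congr rfl this, ← Finset.mul_sum]
  simp
  ring

theorem hirzDen_spec (d : ℕ) :
    C (1 + yy) * hirzDen d = rr ^ d + C yy * (1 - X) ^ d := by
  rw [hirzDen, mul_add, hirzNum_spec]
  simp only [map_add, map_one]; ring

theorem constantCoeff_hirzDen (d : ℕ) : constantCoeff (hirzDen d) = 1 := by
  simp [hirzDen, hirzNum]

theorem hirzDen_mul_inv (d : ℕ) : hirzDen d * invOfUnit (hirzDen d) 1 = 1 :=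
  mul_invOfUnit _ _ (by simp [constantCoeff_hirzDen])

@[simp] theorem hirzF_zero : hirzF 0 = 0 := by simp [hirzF]

theorem hirzF_succ (d : ℕ) :
    hirzF (d + 1) = hirzF d + X * (1 + (C yy - 1) * hirzF d - C yy * (hirzF d * hirzF (d + 1))) := by
  have h1 := hirzDen_mul_inv d
  have h2 := hirzDen_mul_inv (d + 1)
  unfold hirzF
  set i := invOfUnit (hirzDen d) 1
  set i' := invOfUnit (hirzDen (d + 1)) 1
  have e1 : hirzDen (d + 1) = (1 - X) ^ d + rr * hirzNum d := by
    rw [hirzDen, hirzNum_succ, pow_succ]; ring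
  rw [e1] at h2
  rw [hirzNum_succ]
  rw [hirzDen] at h1
  set Q : PowerSeries (Polynomial ℤ) := (1 - X) ^ d
  set n := hirzNum d
  simp only [rr] at *
  set z : PowerSeries (Polynomial ℤ) := X
  set Y : PowerSeries (Polynomial ℤ) := C yy
  linear_combination (-(((1 + Y * z) * n + z * Q) * i' - z)) * h1
    + (n * i + z * (Q + n) * i + (Y - 1) * z * n * i) * h2

theorem hirzB_spec : (1 - X) * rr * hirzB = 1 :=
  mul_invOfUnit _ _ (by simp [rr])

theorem chiY_zero_cons (N : ℕ) (ds : List ℕ) : chiY N (0 :: ds) = 0 := by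
  simp [chiY]

theorem constantCoeff_hirzF (d : ℕ) : constantCoeff (hirzF d) = 0 := by
  simp [hirzF, hirzNum]

theorem chiY_zero_left (d : ℕ) (ds : List ℕ) : chiY 0 (d :: ds) = 0 := by
  simp [chiY, constantCoeff_hirzF]

theorem chiY_succ (N a : ℕ) (ds : List ℕ) :
    chiY (N + 1) ((a + 1) :: ds) = chiY (N + 1) (a :: ds) + chiY N ds
      + (yy - 1) * chiY N (a :: ds) - yy * chiY N (a :: (a + 1) :: ds) := by
  unfold chiY
  simp only [List.map_cons, List.prod_cons]
  set G := (ds.map hirzF).prod
  have : hirzB * (hirzF (a + 1) * G) = hirzB * (hirzF a * G) + X * (hirzB * G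
      + C (yy - 1) * (hirzB * (hirzF a * G)) - C yy * (hirzB * (hirzF a * (hirzF (a + 1) * G)))) := by
    have h := hirzF_succ a
    simp only [map_sub, map_one]
    linear_combination (hirzB * G) * h
  rw [this, map_add, coeff_succ_X_mul, map_sub, map_add, coeff_C_mul, coeff_C_mul]
  ring

theorem chiY_nil_zero : chiY 0 [] = 1 := by
  have h := hirzB_spec
  have := congrArg (coeff 0) h
  simp [rr] at this
  simp [chiY, this]

theorem chiY_nil_succ (N : ℕ) : chiY (N + 1) [] = 1 - yy * chiY N [] := by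
  have h := hirzB_spec
  have h1 : rr * hirzB = mk 1 := by
    have h2 := PowerSeries.mk_one_mul_one_sub_eq_one (Polynomial ℤ)
    have : rr * hirzB * (1 - X) = (mk 1 : PowerSeries (Polynomial ℤ)) * (1 - X) := by
      rw [h2]; linear_combination h
    calc rr * hirzB = rr * hirzB * (mk 1 * (1 - X)) := by rw [h2, mul_one]
      _ = (rr * hirzB * (1 - X)) * mk 1 := by ring
      _ = (mk 1 * (1 - X)) * mk 1 := by rw [this]
      _ = mk 1 := by rw [h2, one_mul]
  have h3 := congrArg (coeff (N + 1)) h1
  have h4 : rr * hirzB = hirzB + C yy * (X * hirzB) := by rw [rr]; ring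
  rw [h4, map_add, coeff_C_mul, coeff_succ_X_mul] at h3
  simp only [coeff_mk, Pi.one_apply] at h3
  simp only [chiY, List.map_nil, List.prod_nil, mul_one]
  linear_combination h3

/-- `χ_y(P^N) = ∑ (-y)^p`. -/
theorem chiY_nil (N : ℕ) : chiY N [] = ∑ p ∈ Finset.range (N + 1), (-yy) ^ p := by
  induction N with
  | zero => simp [chiY_nil_zero]
  | succ n ih =>
    rw [chiY_nil_succ, ih, Finset.sum_range_succ' (fun p => (-yy) ^ p) (n + 1), Finset.mul_sum]
    simp only [pow_succ, pow_zero]
    rw [sub_eq_add_neg, ← Finset.sum_neg_distrib, add_comm]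
    congr 1
    apply Finset.sum_congr rfl
    intro x _
    ring

/-! ## Chern numbers -/

/-- `d w / (1 + d w)` -/
def gg (d : ℕ) : PowerSeries ℤ := C (d : ℤ) * X * invOfUnit (1 + C (d : ℤ) * X) 1

theorem gg_spec (d : ℕ) : (1 + C (d : ℤ) * X) * gg d = C (d : ℤ) * X := by
  have := mul_invOfUnit (1 + C (d : ℤ) * X : PowerSeries ℤ) 1 (by simp)
  rw [gg]
  linear_combination (C (d : ℤ) * X) * this

theorem inv_spec (d : ℕ) : (1 + C (d : ℤ) * X) * invOfUnit (1 + C (d : ℤ) * X : PowerSeries ℤ) 1 = 1 :=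
  mul_invOfUnit (1 + C (d : ℤ) * X : PowerSeries ℤ) 1 (by simp)

@[simp] theorem gg_zero : gg 0 = 0 := by simp [gg]

theorem gg_succ (a : ℕ) :
    (1 + X) * gg (a + 1) = (1 + X) * gg a + X - 2 * (X * gg a) + X * (gg a * gg (a + 1)) := by
  have h1 := inv_spec a
  have h2 := inv_spec (a + 1)
  have s1 := gg_spec a
  have s2 := gg_spec (a + 1)
  set u : PowerSeries ℤ := invOfUnit (1 + C (a : ℤ) * X) 1
  set v : PowerSeries ℤ := invOfUnit (1 + C ((a + 1 : ℕ) : ℤ) * X) 1
  set g := gg a
  set k := gg (a + 1)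
  push_cast at *
  simp only [map_add, map_one] at *
  set A : PowerSeries ℤ := C (a : ℤ)
  set E := (1 + X) * k - ((1 + X) * g + X - 2 * (X * g) + X * (g * k)) with hE
  have hz : (1 + A * X) * (1 + (A + 1) * X) * E = 0 := by
    rw [hE]
    linear_combination ((1 + X) * (1 + A * X) - X * (1 + A * X) * g) * s2
      + (-(1 + X) * (1 + (A + 1) * X) + 2 * X * (1 + (A + 1) * X) - X * ((A + 1) * X)) * s1
  have : E = 0 := by
    calc E = (u * v) * ((1 + A * X) * (1 + (A + 1) * X) * E)
          + (1 - ((1 + A * X) * u) * ((1 + (A + 1) * X) * v)) * E := by ring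
      _ = 0 := by rw [hz, h1, h2]; ring
  rw [hE] at this
  linear_combination this


/-- the Euler characteristic `∫_X c_D(TX)`, in the form `[w^N] (1+w)^(N+1) ∏ d w/(1+dw)` -/
def eulerW (N : ℕ) (ds : List ℕ) : ℤ := coeff N ((1 + X) ^ (N + 1) * (ds.map gg).prod)

/-- `∫_X c_{D-1}(TX) h`, in the form `[w^N] (1+w)^(N+1) w ∏ d w/(1+dw)` -/
def chernT (N : ℕ) (ds : List ℕ) : ℤ := coeff N ((1 + X) ^ (N + 1) * (X * (ds.map gg).prod))

theorem gg_prod (ds : List ℕ) : (ds.map gg).prod = C (ds.map (fun d : ℕ => (d : ℤ))).prod *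
    X ^ ds.length * (ds.map fun d : ℕ => invOfUnit (1 + C (d : ℤ) * X) 1).prod := by
  induction ds with
  | nil => simp
  | cons a ds ih =>
    simp only [List.map_cons, List.prod_cons, List.length_cons, ih, gg, pow_succ, map_mul]
    ring

theorem eulerW_eq (D : ℕ) (ds : List ℕ) : eulerW (D + ds.length) ds = chernNum (D + ds.length) ds D := by
  rw [eulerW, gg_prod, chernNum, chernSeries]
  have : (1 + X) ^ (D + ds.length + 1) * (C (ds.map (fun d : ℕ => (d : ℤ))).prod * X ^ ds.length *
      (ds.map fun d : ℕ => invOfUnit (1 + C (d : ℤ) * X) 1).prod) =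
      C (ds.map (fun d : ℕ => (d : ℤ))).prod * (((1 + X) ^ (D + ds.length + 1) *
        (ds.map fun d : ℕ => invOfUnit (1 + C (d : ℤ) * X) 1).prod) * X ^ ds.length) := by ring
  rw [this, coeff_C_mul, coeff_mul_X_pow]

theorem chernT_eq (D : ℕ) (ds : List ℕ) :
    chernT (D + 1 + ds.length) ds = chernNum (D + 1 + ds.length) ds D := by
  rw [chernT, gg_prod, chernNum, chernSeries]
  have : (1 + X) ^ (D + 1 + ds.length + 1) * (X * (C (ds.map (fun d : ℕ => (d : ℤ))).prod * X ^ ds.length *
      (ds.map fun d : ℕ => invOfUnit (1 + C (d : ℤ) * X) 1).prod)) =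
      C (ds.map (fun d : ℕ => (d : ℤ))).prod * (((1 + X) ^ (D + 1 + ds.length + 1) *
        (ds.map fun d : ℕ => invOfUnit (1 + C (d : ℤ) * X) 1).prod) * X ^ (1 + ds.length)) := by ring
  rw [this, coeff_C_mul, show D + 1 + ds.length = D + (1 + ds.length) by ring, coeff_mul_X_pow]

theorem eulerW_zero_cons (N : ℕ) (ds : List ℕ) : eulerW N (0 :: ds) = 0 := by
  simp [eulerW]

theorem chernT_zero_cons (N : ℕ) (ds : List ℕ) : chernT N (0 :: ds) = 0 := by
  simp [chernT]

theorem constantCoeff_gg (d : ℕ) : constantCoeff (gg d) = 0 := by simp [gg]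

theorem eulerW_zero_left (d : ℕ) (ds : List ℕ) : eulerW 0 (d :: ds) = 0 := by
  simp [eulerW, constantCoeff_gg]

theorem chernT_zero_left (ds : List ℕ) : chernT 0 ds = 0 := by
  simp [chernT]

/-- the common recursion -/
theorem gg_rec (N a : ℕ) (G : PowerSeries ℤ) :
    coeff (N + 1) ((1 + X) ^ (N + 2) * (gg (a + 1) * G)) =
      coeff (N + 1) ((1 + X) ^ (N + 2) * (gg a * G)) + coeff N ((1 + X) ^ (N + 1) * G)
      - 2 * coeff N ((1 + X) ^ (N + 1) * (gg a * G))
      + coeff N ((1 + X) ^ (N + 1) * (gg a * (gg (a + 1) * G))) := by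
  have h := gg_succ a
  have : (1 + X) ^ (N + 2) * (gg (a + 1) * G) = (1 + X) ^ (N + 2) * (gg a * G) +
      X * ((1 + X) ^ (N + 1) * G - C 2 * ((1 + X) ^ (N + 1) * (gg a * G))
       + (1 + X) ^ (N + 1) * (gg a * (gg (a + 1) * G))) := by
    rw [pow_succ, show (C 2 : PowerSeries ℤ) = 2 from rfl]
    linear_combination ((1 + X) ^ (N + 1) * G) * h
  rw [this, map_add, coeff_succ_X_mul, map_add, map_sub, coeff_C_mul]
  ring

theorem eulerW_succ (N a : ℕ) (ds : List ℕ) :
    eulerW (N + 1) ((a + 1) :: ds) = eulerW (N + 1) (a :: ds) + eulerW N ds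
      - 2 * eulerW N (a :: ds) + eulerW N (a :: (a + 1) :: ds) := by
  simp only [eulerW, List.map_cons, List.prod_cons]
  exact gg_rec N a _

theorem chernT_succ (N a : ℕ) (ds : List ℕ) :
    chernT (N + 1) ((a + 1) :: ds) = chernT (N + 1) (a :: ds) + chernT N ds
      - 2 * chernT N (a :: ds) + chernT N (a :: (a + 1) :: ds) := by
  simp only [chernT, List.map_cons, List.prod_cons]
  have := gg_rec N a (X * (ds.map gg).prod)
  have e : ∀ b c : PowerSeries ℤ, X * (b * c) = b * (X * c) := by intro b c; ring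
  simp only [e]
  exact this

/-- the relation `2 χ_{ab} + χ_{ab(a+b)} = b T_a + a T_b - (a+b) T_{ab(a+b)}` with `b = 1` -/
theorem eulerW_chernT_rel (N a : ℕ) (ds : List ℕ) :
    2 * eulerW N (a :: ds) + eulerW N (a :: (a + 1) :: ds) =
      chernT (N + 1) (a :: ds) + a * chernT N ds - (a + 1) * chernT N (a :: (a + 1) :: ds) := by
  simp only [chernT, eulerW, List.map_cons, List.prod_cons]
  set G := (ds.map gg).prod
  have s1 := gg_spec a
  have s2 := gg_spec (a + 1)
  push_cast at *
  simp only [map_add, map_one] at *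
  set A : PowerSeries ℤ := C (a : ℤ)
  have e1 : (1 + X) ^ (N + 1 + 1) * (X * (gg a * G)) =
    X * ((1 + X) ^ (N + 1) * ((1 + X) * (gg a * G))) := by ring
  rw [e1, coeff_succ_X_mul]
  have e2 : (C 2 : PowerSeries ℤ) * ((1 + X) ^ (N + 1) * (gg a * G)) +
      (1 + X) ^ (N + 1) * (gg a * (gg (a + 1) * G)) =
      (1 + X) ^ (N + 1) * ((1 + X) * (gg a * G)) + A * ((1 + X) ^ (N + 1) * (X * G))
      - (A + 1) * ((1 + X) ^ (N + 1) * (X * (gg a * (gg (a + 1) * G)))) := by
    rw [show (C 2 : PowerSeries ℤ) = 2 from rfl]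
    linear_combination ((1 + X) ^ (N + 1) * G) * (s1 + gg a * s2)
  have e3 := congrArg (coeff N) e2
  rw [map_add, map_sub, map_add, coeff_C_mul, coeff_C_mul] at e3
  rw [e3, show A + 1 = C ((a : ℤ) + 1) by simp [A], coeff_C_mul]


/-! ## Values at `y = -1` of `χ_y` and its first two derivatives -/

open Polynomial in
/-- value, first and second derivative at `y=-1` -/
def p0 (N : ℕ) (ds : List ℕ) : ℤ := (chiY N ds).eval (-1)

open Polynomial in
def p1 (N : ℕ) (ds : List ℕ) : ℤ := (derivative (chiY N ds)).eval (-1)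

open Polynomial in
def p2 (N : ℕ) (ds : List ℕ) : ℤ := (derivative (derivative (chiY N ds))).eval (-1)

theorem p0_succ (N a : ℕ) (ds : List ℕ) :
    p0 (N + 1) ((a + 1) :: ds) = p0 (N + 1) (a :: ds) + p0 N ds
      - 2 * p0 N (a :: ds) + p0 N (a :: (a + 1) :: ds) := by
  simp only [p0, chiY_succ, Polynomial.eval_add, Polynomial.eval_sub, Polynomial.eval_mul,
    Polynomial.eval_X, Polynomial.eval_one]
  ring

theorem p1_succ (N a : ℕ) (ds : List ℕ) :
    p1 (N + 1) ((a + 1) :: ds) = p1 (N + 1) (a :: ds) + p1 N ds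
      - 2 * p1 N (a :: ds) + p0 N (a :: ds) + p1 N (a :: (a + 1) :: ds) -
      p0 N (a :: (a + 1) :: ds) := by
  simp only [p0, p1, chiY_succ, Polynomial.eval_add, Polynomial.eval_sub, Polynomial.eval_mul,
    Polynomial.eval_X, Polynomial.eval_one, Polynomial.derivative_add, Polynomial.derivative_sub,
    Polynomial.derivative_mul, Polynomial.derivative_X, Polynomial.derivative_one,
    Polynomial.eval_zero]
  ring

theorem p2_succ (N a : ℕ) (ds : List ℕ) :
    p2 (N + 1) ((a + 1) :: ds) = p2 (N + 1) (a :: ds) + p2 N ds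
      - 2 * p2 N (a :: ds) + 2 * p1 N (a :: ds) + p2 N (a :: (a + 1) :: ds) -
      2 * p1 N (a :: (a + 1) :: ds) := by
  simp only [p2, p1, chiY_succ, Polynomial.eval_add, Polynomial.eval_sub, Polynomial.eval_mul,
    Polynomial.eval_X, Polynomial.eval_one, Polynomial.derivative_add, Polynomial.derivative_sub,
    Polynomial.derivative_mul, Polynomial.derivative_X, Polynomial.derivative_one,
    Polynomial.eval_zero, Polynomial.derivative_zero]
  ring

theorem p0_nil (N : ℕ) : p0 N [] = N + 1 := by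
  induction N with
  | zero => simp [p0, chiY_nil_zero]
  | succ n ih =>
    rw [p0] at *
    rw [chiY_nil_succ]
    simp only [Polynomial.eval_sub, Polynomial.eval_mul, Polynomial.eval_X, Polynomial.eval_one, ih]
    push_cast; ring

theorem p1_nil (N : ℕ) : 2 * p1 N [] = - (N * (N + 1)) := by
  induction N with
  | zero => simp [p1, chiY_nil_zero]
  | succ n ih =>
    have h0 := p0_nil n
    rw [p0] at h0
    rw [p1] at *
    rw [chiY_nil_succ]
    simp only [Polynomial.eval_sub, Polynomial.eval_mul, Polynomial.eval_X, Polynomial.eval_one,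
      Polynomial.derivative_sub, Polynomial.derivative_mul, Polynomial.derivative_X,
      Polynomial.derivative_one, Polynomial.eval_zero, Polynomial.eval_add, h0]
    push_cast
    linear_combination ih

theorem p2_nil (N : ℕ) : 3 * p2 N [] = (N + 1) * N * (N - 1) := by
  induction N with
  | zero => simp [p2, chiY_nil_zero]
  | succ n ih =>
    have h0 := p1_nil n
    rw [p1] at h0
    rw [p2] at *
    rw [chiY_nil_succ]
    simp only [Polynomial.eval_sub, Polynomial.eval_mul, Polynomial.eval_X, Polynomial.eval_one,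
      Polynomial.derivative_sub, Polynomial.derivative_mul, Polynomial.derivative_X,
      Polynomial.derivative_one, Polynomial.eval_zero, Polynomial.eval_add, Polynomial.derivative_add,
      Polynomial.derivative_zero]
    push_cast
    linear_combination ih - 3 * h0

theorem coeff_one_add_X_pow (n k : ℕ) : coeff k ((1 + X : PowerSeries ℤ) ^ n) = (n.choose k : ℤ) := by
  have : (1 + X : PowerSeries ℤ) ^ n = (((1 + Polynomial.X) ^ n : Polynomial ℤ) : PowerSeries ℤ) := by
    simp
  rw [this, Polynomial.coeff_coe, Polynomial.coeff_one_add_X_pow]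

theorem eulerW_nil (N : ℕ) : eulerW N [] = N + 1 := by
  simp [eulerW, coeff_one_add_X_pow]

theorem chernT_nil (N : ℕ) : 2 * chernT N [] = N * (N + 1) := by
  cases N with
  | zero => simp [chernT]
  | succ n =>
    simp only [chernT, List.map_nil, List.prod_nil, mul_one]
    rw [show (1 + X : PowerSeries ℤ) ^ (n + 1 + 1) * X = X * (1 + X) ^ (n + 1 + 1) by ring,
      coeff_succ_X_mul, coeff_one_add_X_pow]
    have h : (n + 1 + 1).choose n = (n + 1 + 1).choose 2 := by
      rw [← Nat.choose_symm (show 2 ≤ n + 1 + 1 by omega)]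
      congr 1
    rw [h]
    have := Nat.triangle_succ (n + 1)
    have h2 := Nat.choose_two_right (n + 1 + 1)
    have h3 : 2 * (n + 1 + 1).choose 2 = (n + 1 + 1) * (n + 1) := by
      rw [h2]
      have : 2 ∣ (n + 1 + 1) * (n + 1 + 1 - 1) := (Nat.even_mul_pred_self (n + 1 + 1)).two_dvd
      rw [Nat.mul_div_cancel' this]; rfl
    push_cast
    exact_mod_cast (by linarith : 2 * (n + 1 + 1).choose 2 = (n + 1) * (n + 1 + 1))

/-- the three identities, in one statement about `(N, ds)` -/
def Ids (N : ℕ) (ds : List ℕ) : Prop :=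
  p0 N ds = eulerW N ds ∧ 2 * p1 N ds = - ((N : ℤ) - ds.length) * eulerW N ds ∧
  12 * p2 N ds = ((N : ℤ) - ds.length) * (3 * ((N : ℤ) - ds.length) - 5) * eulerW N ds
    + 2 * ((N : ℤ) + 1 - (ds.map (fun d : ℕ => (d : ℤ))).sum) * chernT N ds

theorem ids_nil (N : ℕ) : Ids N [] := by
  refine ⟨by rw [p0_nil, eulerW_nil], by rw [p1_nil, eulerW_nil]; simp, ?_⟩
  have h1 := p2_nil N
  have h2 := chernT_nil N
  rw [eulerW_nil]
  simp only [List.length_nil, List.map_nil, List.sum_nil]
  push_cast
  linear_combination 4 * h1 - (N + 1) * h2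

theorem ids_zero_cons (N : ℕ) (ds : List ℕ) : Ids N (0 :: ds) := by
  simp [Ids, p0, p1, p2, chiY_zero_cons, eulerW_zero_cons, chernT_zero_cons]

theorem ids (N : ℕ) : ∀ ds : List ℕ, Ids N ds := by
  induction N with
  | zero =>
    intro ds
    cases ds with
    | nil => exact ids_nil 0
    | cons a ds =>
      simp [Ids, p0, p1, p2, chiY_zero_left, eulerW_zero_left, chernT_zero_left]
  | succ N ihN =>
    intro ds
    cases ds with
    | nil => exact ids_nil _
    | cons a ds =>
      induction a with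
      | zero => exact ids_zero_cons _ _
      | succ a iha =>
        obtain ⟨a0, a1, a2⟩ := iha
        obtain ⟨b0, b1, b2⟩ := ihN ds
        obtain ⟨c0, c1, c2⟩ := ihN (a :: ds)
        obtain ⟨d0, d1, d2⟩ := ihN (a :: (a + 1) :: ds)
        have e := eulerW_succ N a ds
        have t := chernT_succ N a ds
        have r := eulerW_chernT_rel N a ds
        simp only [List.length_cons, List.map_cons, List.sum_cons] at *
        push_cast at *
        refine ⟨?_, ?_, ?_⟩
        · rw [p0_succ, e]; linear_combination a0 + b0 - 2 * c0 + d0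
        · rw [p1_succ, e]
          simp only [List.length_cons]
          push_cast
          linear_combination a1 + b1 - 2 * c1 + d1 + 2 * c0 - 2 * d0
        · rw [p2_succ]
          simp only [List.length_cons, List.map_cons, List.sum_cons]
          push_cast
          rw [e, t]
          linear_combination a2 + b2 - 2 * c2 + d2 + 12 * c1 - 12 * d1 - 2 * r


/-! ## Hodge numbers -/

theorem hirz_prod_dvd (ds : List ℕ) : ∃ G, (ds.map hirzF).prod = X ^ ds.length * G := by
  induction ds with
  | nil => exact ⟨1, by simp⟩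
  | cons a ds ih =>
    obtain ⟨G, hG⟩ := ih
    obtain ⟨H, hH⟩ := X_dvd_iff.mpr (constantCoeff_hirzF a)
    exact ⟨H * G, by simp [hG, hH, pow_succ]; ring⟩

theorem chiY_eq_zero_of_lt {N : ℕ} {ds : List ℕ} (h : N < ds.length) : chiY N ds = 0 := by
  obtain ⟨G, hG⟩ := hirz_prod_dvd ds
  rw [chiY, hG, show hirzB * (X ^ ds.length * G) = X ^ ds.length * (hirzB * G) by ring]
  rw [coeff_X_pow_mul']
  simp; omega

/-- The Hodge-theoretic shape of `χ_y`: with `D = N - len`, there are natural numbers
`h p` (`= h^{p,D-p}_prim`) vanishing outside `[0,D]`, symmetric, with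
`χ^p = (-1)^p + (-1)^{D-p} h p`. -/
def HodgeShape (N : ℕ) (ds : List ℕ) : Prop :=
  ∃ h : ℤ → ℕ, (∀ p : ℤ, (p < 0 ∨ (N : ℤ) - ds.length < p) → h p = 0) ∧
    (∀ p : ℤ, h ((N : ℤ) - ds.length - p) = h p) ∧
    ∀ p : ℕ, (chiY N ds).coeff p = (if (p : ℤ) ≤ (N : ℤ) - ds.length then (-1) ^ p else 0)
      + (-1) ^ (N + ds.length + p) * (h p : ℤ)

theorem chiY_one (N : ℕ) (ds : List ℕ) : chiY (N + 1) (1 :: ds) = chiY N ds := by
  have := chiY_succ N 0 ds
  simpa [chiY_zero_cons] using this

theorem coeff_geom (N p : ℕ) : (∑ p ∈ Finset.range (N + 1), (-yy) ^ p).coeff p =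
    if (p : ℤ) ≤ N then (-1 : ℤ) ^ p else 0 := by
  rw [Polynomial.finsetSum_coeff]
  have : ∀ j ∈ Finset.range (N + 1), ((-yy) ^ j).coeff p = if p = j then (-1 : ℤ) ^ p else 0 := by
    intro j _
    rw [neg_pow, show ((-1 : Polynomial ℤ)) ^ j = Polynomial.C ((-1) ^ j) by simp,
      Polynomial.coeff_C_mul, Polynomial.coeff_X_pow]
    split_ifs with h
    · rw [h]; simp
    · simp
  rw [Finset.sum_congr rfl this, Finset.sum_ite_eq]
  simp only [Finset.mem_range]
  have : p < N + 1 ↔ (p : ℤ) ≤ N := by omega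
  simp [this]

theorem hodgeShape_nil (N : ℕ) : HodgeShape N [] := by
  refine ⟨fun _ => 0, fun _ _ => rfl, fun _ => rfl, fun p => ?_⟩
  rw [chiY_nil, coeff_geom]
  simp

theorem hodgeShape_of_lt {N : ℕ} {ds : List ℕ} (h : N < ds.length) : HodgeShape N ds := by
  refine ⟨fun _ => 0, fun _ _ => rfl, fun _ => rfl, fun p => ?_⟩
  rw [chiY_eq_zero_of_lt h, if_neg (by omega)]
  simp

theorem hodgeShape (N : ℕ) : ∀ ds : List ℕ, (∀ d ∈ ds, 1 ≤ d) → HodgeShape N ds := by
  induction N with
  | zero =>
    intro ds _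
    cases ds with
    | nil => exact hodgeShape_nil 0
    | cons a ds => exact hodgeShape_of_lt (by simp)
  | succ N ihN =>
    intro ds hds
    cases ds with
    | nil => exact hodgeShape_nil _
    | cons a ds =>
      have hds' : ∀ d ∈ ds, 1 ≤ d := fun d hd => hds d (List.mem_cons_of_mem _ hd)
      have ha : 1 ≤ a := hds a (by simp)
      clear hds
      obtain ⟨hb, b1, b2, b3⟩ := ihN ds hds'
      induction a, ha using Nat.le_induction with
      | base =>
        unfold HodgeShape
        simp only [List.length_cons]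
        push_cast
        refine ⟨hb, ?_, ?_, ?_⟩
        · intro p hp
          apply b1
          omega
        · intro p
          rw [← b2 p]
          congr 1
          ring
        · intro p
          rw [chiY_one, b3]
          rw [show N + 1 + (ds.length + 1) + p = N + ds.length + p + 2 by ring, pow_add _ _ 2]
          simp
      | succ a ha iha =>
        obtain ⟨ha', a1, a2, a3⟩ := iha
        obtain ⟨hc, c1, c2, c3⟩ := ihN (a :: ds) (by
          intro d hd
          rcases List.mem_cons.mp hd with rfl | h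
          · exact ha
          · exact hds' d h)
        obtain ⟨hd, d1, d2, d3⟩ := ihN (a :: (a + 1) :: ds) (by
          intro d hd
          rcases List.mem_cons.mp hd with rfl | h
          · exact ha
          rcases List.mem_cons.mp h with rfl | h
          · omega
          · exact hds' d h)
        unfold HodgeShape
        simp only [List.length_cons] at *
        push_cast at *
        refine ⟨fun p => ha' p + hb p + hc (p - 1) + hc p + hd (p - 1) +
          (if (N : ℤ) - ds.length = 0 ∧ p = 0 then 1 else 0), ?_, ?_, ?_⟩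
        · intro p hp
          simp only
          rw [a1 p (by omega), b1 p (by omega), c1 (p - 1) (by omega), c1 p (by omega),
            d1 (p - 1) (by omega), if_neg (by omega)]
        · intro p
          have e1 := a2 p
          have e2 := b2 p
          have e3 := c2 (p - 1)
          have e4 := c2 p
          have e5 := d2 (p - 1)
          rw [show (N : ℤ) - (ds.length + 1) - (p - 1) = N + 1 - (ds.length + 1) - p by ring] at e3
          rw [show (N : ℤ) - (ds.length + 1) - p = N + 1 - (ds.length + 1) - p - 1 by ring] at e4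
          rw [show (N : ℤ) - (ds.length + 1 + 1) - (p - 1) = N + 1 - (ds.length + 1) - p - 1 by ring] at e5
          rw [show (N : ℤ) - ds.length - p = N + 1 - (ds.length + 1) - p by ring] at e2
          simp only [e1, e2, e3, e4, e5]
          have : ((N : ℤ) - ds.length = 0 ∧ (N : ℤ) + 1 - (ds.length + 1) - p = 0) ↔
            ((N : ℤ) - ds.length = 0 ∧ p = 0) := by omega
          simp only [this]
          ring
        · intro p
          rw [chiY_succ]
          have key : ∀ (c d : Polynomial ℤ) (p : ℕ), ((yy - 1) * c - yy * d).coeff p =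
            (if p = 0 then 0 else c.coeff (p - 1) - d.coeff (p - 1)) - c.coeff p := by
            intro c d p
            rw [sub_mul, Polynomial.coeff_sub, Polynomial.coeff_sub, one_mul]
            cases p with
            | zero => simp
            | succ p => simp only [yy, Polynomial.coeff_X_mul]; simp; ring
          rw [show chiY (N + 1) (a :: ds) + chiY N ds + (yy - 1) * chiY N (a :: ds) -
            yy * chiY N (a :: (a + 1) :: ds) = chiY (N + 1) (a :: ds) + chiY N ds + ((yy - 1) * chiY N (a :: ds) -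
            yy * chiY N (a :: (a + 1) :: ds)) by ring]
          rw [Polynomial.coeff_add, Polynomial.coeff_add, key, a3, b3]
          rcases p with _ | p
          · have hc0 := c1 (-1) (by omega)
            have hd0 := d1 (-1) (by omega)
            simp only [c3, CharP.cast_eq_zero, zero_sub, hc0, hd0]
            have e1 : ((-1 : ℤ)) ^ (N + 1 + (ds.length + 1) + 0) = (-1) ^ (N + ds.length) := by
              rw [show N + 1 + (ds.length + 1) + 0 = N + ds.length + 2 by ring, pow_add _ _ 2]; simp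
            have e2 : ((-1 : ℤ)) ^ (N + (ds.length + 1) + 0) = - (-1) ^ (N + ds.length) := by
              rw [show N + (ds.length + 1) + 0 = N + ds.length + 1 by ring, pow_succ]; simp
            rw [e1, e2]
            have e3 : (N : ℤ) - ds.length = 0 → ((-1 : ℤ)) ^ (N + ds.length) = 1 := by
              intro h
              have : N = ds.length := by omega
              rw [this]; exact Even.neg_one_pow ⟨_, rfl⟩
            simp only [add_zero, and_true]
            split_ifs <;> first
              | (exfalso; omega)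
              | (push_cast; ring1)
              | (rw [e3 (by omega)]; push_cast; ring1)
          · simp only [c3, d3, Nat.add_sub_cancel]
            have e0 : ∀ k : ℕ, ((-1 : ℤ)) ^ (k + 2) = (-1) ^ k := by
              intro k; rw [pow_add]; simp
            have e1 : ((-1 : ℤ)) ^ (N + 1 + (ds.length + 1) + (p + 1)) = - (-1) ^ (N + ds.length + p) := by
              rw [show N + 1 + (ds.length + 1) + (p + 1) = N + ds.length + p + 1 + 2 by ring, e0,
                pow_succ]; simp
            have e2 : ((-1 : ℤ)) ^ (N + (ds.length + 1) + p) = - (-1) ^ (N + ds.length + p) := by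
              rw [show N + (ds.length + 1) + p = N + ds.length + p + 1 by ring, pow_succ]; simp
            have e3 : ((-1 : ℤ)) ^ (N + (ds.length + 1 + 1) + p) = (-1) ^ (N + ds.length + p) := by
              rw [show N + (ds.length + 1 + 1) + p = N + ds.length + p + 2 by ring, e0]
            have e4 : ((-1 : ℤ)) ^ (N + ds.length + (p + 1)) = - (-1) ^ (N + ds.length + p) := by
              rw [← add_assoc, pow_succ]; simp
            have e5 : ((-1 : ℤ)) ^ (N + (ds.length + 1) + (p + 1)) = (-1) ^ (N + ds.length + p) := by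
              rw [show N + (ds.length + 1) + (p + 1) = N + ds.length + p + 2 by ring, e0]
            rw [e1, e2, e3, e4, e5]
            have e6 : ¬ ((N : ℤ) - ds.length = 0 ∧ ((p + 1 : ℕ) : ℤ) = 0) := by push_cast; omega
            rw [if_neg (Nat.succ_ne_zero p), if_neg e6]
            have e7 : (((p + 1 : ℕ) : ℤ) - 1) = p := by push_cast; ring
            rw [e7]
            split_ifs <;> first
              | (exfalso; omega)
              | (push_cast; ring1)

theorem neg_one_pow_sq (k : ℕ) : ((-1 : ℤ)) ^ k * (-1) ^ k = 1 := by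
  rw [← pow_add]; exact Even.neg_one_pow ⟨k, rfl⟩

theorem hprim_eq_of_shape {D : ℕ} {ds : List ℕ} {h : ℤ → ℕ}
    (h1 : ∀ p : ℤ, (p < 0 ∨ ((D + ds.length : ℕ) : ℤ) - ds.length < p) → h p = 0)
    (h3 : ∀ p : ℕ, (chiY (D + ds.length) ds).coeff p =
      (if (p : ℤ) ≤ ((D + ds.length : ℕ) : ℤ) - ds.length then (-1) ^ p else 0)
      + (-1) ^ (D + ds.length + ds.length + p) * (h p : ℤ)) (p : ℕ) : h p = hprim D ds p := by
  unfold hprim
  split_ifs with hp
  · rw [h3, if_pos (by push_cast; omega)]
    have e : ((-1 : ℤ)) ^ (D + ds.length + ds.length + p) = (-1) ^ (D + p) := by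
      rw [show D + ds.length + ds.length + p = D + p + (ds.length + ds.length) by ring, pow_add _ (D + p),
        Even.neg_one_pow ⟨ds.length, rfl⟩, mul_one]
    rw [e, add_sub_cancel_left, ← mul_assoc, neg_one_pow_sq, one_mul]
    simp
  · exact h1 p (by right; push_cast; omega)

theorem coeff_chiY {D : ℕ} {ds : List ℕ} (hds : ∀ d ∈ ds, 1 ≤ d) (p : ℕ) :
    (chiY (D + ds.length) ds).coeff p =
      if p ≤ D then (-1) ^ p + (-1) ^ (D + p) * (hprim D ds p : ℤ) else 0 := by
  obtain ⟨h, h1, h2, h3⟩ := hodgeShape (D + ds.length) ds hds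
  have e : ((-1 : ℤ)) ^ (D + ds.length + ds.length + p) = (-1) ^ (D + p) := by
    rw [show D + ds.length + ds.length + p = D + p + (ds.length + ds.length) by ring, pow_add _ (D + p),
      Even.neg_one_pow ⟨ds.length, rfl⟩, mul_one]
  rw [h3, ← hprim_eq_of_shape h1 h3 p, e]
  split_ifs with a b b
  · rfl
  · exfalso; push_cast at a; omega
  · exfalso; push_cast at a; omega
  · rw [h1 p (by right; push_cast; omega)]; simp

theorem hprim_symm {D : ℕ} {ds : List ℕ} (hds : ∀ d ∈ ds, 1 ≤ d) {p : ℕ} (hp : p ≤ D) :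
    hprim D ds (D - p) = hprim D ds p := by
  obtain ⟨h, h1, h2, h3⟩ := hodgeShape (D + ds.length) ds hds
  rw [← hprim_eq_of_shape h1 h3 p, ← hprim_eq_of_shape h1 h3 (D - p), ← h2 p]
  congr 1
  push_cast [Nat.cast_sub hp]
  ring

theorem hprim_of_lt {D : ℕ} {ds : List ℕ} {p : ℕ} (hp : D < p) : hprim D ds p = 0 := by
  rw [hprim, if_neg (by omega)]

/-- super dimension of the `p`-th Hodge piece: `∑_q (-1)^{p+q} h^{p,q}` -/
def sdim (D : ℕ) (ds : List ℕ) (p : ℕ) : ℤ := 1 + (-1) ^ D * (hprim D ds p : ℤ)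

theorem chiY_eq_sum {D : ℕ} {ds : List ℕ} (hds : ∀ d ∈ ds, 1 ≤ d) :
    chiY (D + ds.length) ds = ∑ p ∈ Finset.range (D + 1),
      Polynomial.C ((-1) ^ p * sdim D ds p) * Polynomial.X ^ p := by
  ext n
  rw [coeff_chiY hds, Polynomial.finsetSum_coeff]
  simp only [Polynomial.coeff_C_mul, Polynomial.coeff_X_pow]
  rw [show (∑ b ∈ Finset.range (D + 1), (-1) ^ b * sdim D ds b * (if n = b then (1 : ℤ) else 0)) =
    ∑ b ∈ Finset.range (D + 1), if n = b then (-1) ^ b * sdim D ds b else 0 from
      Finset.sum_congr rfl (by intro b _; split_ifs <;> simp)]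
  rw [Finset.sum_ite_eq]
  simp only [Finset.mem_range]
  split_ifs with a b b
  · rw [sdim, pow_add]; ring
  · omega
  · omega
  · rfl

theorem sum_sdim {D : ℕ} {ds : List ℕ} (hds : ∀ d ∈ ds, 1 ≤ d) :
    ∑ p ∈ Finset.range (D + 1), sdim D ds p = p0 (D + ds.length) ds := by
  rw [p0, chiY_eq_sum hds, Polynomial.eval_finsetSum]
  apply Finset.sum_congr rfl
  intro p _
  simp only [Polynomial.eval_mul, Polynomial.eval_C, Polynomial.eval_pow, Polynomial.eval_X]
  linear_combination (-(sdim D ds p)) * neg_one_pow_sq p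

theorem sum_sdim_mul {D : ℕ} {ds : List ℕ} (hds : ∀ d ∈ ds, 1 ≤ d) :
    ∑ p ∈ Finset.range (D + 1), sdim D ds p * p = - p1 (D + ds.length) ds := by
  rw [p1, chiY_eq_sum hds, Polynomial.derivative_sum, Polynomial.eval_finsetSum,
    ← Finset.sum_neg_distrib]
  apply Finset.sum_congr rfl
  intro p _
  simp only [Polynomial.derivative_C_mul_X_pow, Polynomial.eval_mul, Polynomial.eval_C,
    Polynomial.eval_pow, Polynomial.eval_X]
  cases p with
  | zero => simp
  | succ p =>
    simp only [Nat.add_sub_cancel]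
    rw [pow_succ]
    linear_combination (-(sdim D ds (p + 1) * ((p + 1 : ℕ) : ℤ))) * neg_one_pow_sq p

theorem sum_sdim_mul2 {D : ℕ} {ds : List ℕ} (hds : ∀ d ∈ ds, 1 ≤ d) :
    ∑ p ∈ Finset.range (D + 1), sdim D ds p * (p * (p - 1)) = p2 (D + ds.length) ds := by
  rw [p2, chiY_eq_sum hds, Polynomial.derivative_sum, Polynomial.derivative_sum,
    Polynomial.eval_finsetSum]
  apply Finset.sum_congr rfl
  intro p _
  simp only [Polynomial.derivative_C_mul_X_pow, Polynomial.eval_mul, Polynomial.eval_C,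
    Polynomial.eval_pow, Polynomial.eval_X]
  rcases p with _ | _ | p
  · simp
  · simp
  · simp only [Nat.add_sub_cancel]
    rw [pow_succ, pow_succ]
    push_cast
    linear_combination (-(sdim D ds (p + 1 + 1) * (((p : ℤ) + 1 + 1) * (p + 1)))) * neg_one_pow_sq p

/-- `∫_X c_1(TX) c_{D-1}(TX)` -/
def c1cD1 (D : ℕ) (ds : List ℕ) : ℤ :=
  ((D : ℤ) + ds.length + 1 - (ds.map (fun d : ℕ => (d : ℤ))).sum) * chernT (D + ds.length) ds

/-- Gauss-Bonnet: the super dimension of the cohomology is `∫ c_D`. -/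
theorem gaussBonnet {D : ℕ} {ds : List ℕ} (hds : ∀ d ∈ ds, 1 ≤ d) :
    ∑ p ∈ Finset.range (D + 1), sdim D ds p = eulerW (D + ds.length) ds := by
  rw [sum_sdim hds, (ids _ _).1]

/-- The Libgober-Wood identity for complete intersections. -/
theorem libgoberWood {D : ℕ} {ds : List ℕ} (hds : ∀ d ∈ ds, 1 ≤ d) :
    3 * ∑ p ∈ Finset.range (D + 1), sdim D ds p * (2 * p - D) ^ 2 =
      D * eulerW (D + ds.length) ds + 2 * c1cD1 D ds := by
  have h0 := sum_sdim hds (D := D)
  have h1 := sum_sdim_mul hds (D := D)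
  have h2 := sum_sdim_mul2 hds (D := D)
  obtain ⟨i0, i1, i2⟩ := ids (D + ds.length) ds
  have e : ∑ p ∈ Finset.range (D + 1), sdim D ds p * (2 * (p : ℤ) - D) ^ 2 =
      4 * ∑ p ∈ Finset.range (D + 1), sdim D ds p * ((p : ℤ) * (p - 1)) +
      4 * (1 - D) * ∑ p ∈ Finset.range (D + 1), sdim D ds p * (p : ℤ) +
      (D : ℤ) ^ 2 * ∑ p ∈ Finset.range (D + 1), sdim D ds p := by
    rw [Finset.mul_sum, Finset.mul_sum, Finset.mul_sum, ← Finset.sum_add_distrib,
      ← Finset.sum_add_distrib]
    apply Finset.sum_congr rfl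
    intro p _
    ring
  rw [e, h0, h1, h2]
  rw [c1cD1]
  push_cast at i1 i2
  have hD : (D : ℤ) + ds.length - ds.length = D := by ring
  rw [hD] at i1 i2
  linear_combination i2 + 6 * ((D : ℤ) - 1) * i1 + 3 * (D : ℤ) ^ 2 * i0

end

end Vale.Agent.P269.H707
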