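import Vale.Agent.P269.H207.Defs
import Vale.Agent.P269.H707.CIDefs
import Vale.Agent.P269.H707.Hodge

/-! Lemmas on the cohomological data of a complete intersection (helper707) -/

set_option autoImplicit false

namespace Vale.Agent.P269.H707

open Vale.Agent.P269.H207

/-- Poincaré dual index -/
def ciDual (D : ℕ) (ds : List ℕ) (hds : ∀ d ∈ ds, 1 ≤ d) : CIIdx D ds → CIIdx D ds
  | Sum.inl i => Sum.inl ⟨D - i, by omega⟩
  | Sum.inr a => Sum.inr ⟨⟨D - a.1, by omega⟩, ⟨a.2, by
      have := hprim_symm (D := D) hds (p := a.1) (by omega)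
      simp only [this]; exact a.2.2⟩⟩

theorem sig_ext {D : ℕ} {ds : List ℕ} {a b : Σ p : Fin (D + 1), Fin (hprim D ds p)}
    (h1 : (a.1 : ℕ) = b.1) (h2 : (a.2 : ℕ) = b.2) : a = b := by
  obtain ⟨p, j⟩ := a
  obtain ⟨p', j'⟩ := b
  have : p = p' := Fin.ext h1
  subst this
  have : j = j' := Fin.ext h2
  rw [this]

theorem ciEta_dual_ne (D : ℕ) (ds : List ℕ) (hds : ∀ d ∈ ds, 1 ≤ d) (a : CIIdx D ds) :
    ciEta D ds a (ciDual D ds hds a) ≠ 0 := by
  rcases a with i | a
  · simp only [ciDual, ciEta]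
    rw [if_pos (by show (i : ℕ) + (D - (i : ℕ)) = D; omega)]
    have : ds.prod ≠ 0 := by
      intro h
      rw [List.prod_eq_zero_iff] at h
      exact absurd (hds 0 h) (by norm_num)
    exact_mod_cast this
  · simp only [ciDual, ciEta]
    rw [if_pos ⟨by show (a.1 : ℕ) + (D - (a.1 : ℕ)) = D; omega, trivial⟩]
    split_ifs <;> norm_num

theorem ciEta_ne_zero (D : ℕ) (ds : List ℕ) (hds : ∀ d ∈ ds, 1 ≤ d) (a b : CIIdx D ds)
    (h : ciEta D ds a b ≠ 0) : b = ciDual D ds hds a := by
  rcases a with i | a <;> rcases b with j | b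
  · simp only [ciEta] at h
    simp only [ciDual]
    congr 1
    ext
    by_contra hne
    apply h
    rw [if_neg]
    simp only at hne
    omega
  · exact absurd rfl h
  · exact absurd rfl h
  · simp only [ciEta] at h
    simp only [ciDual]
    congr 1
    have h' : (a.1 : ℕ) + b.1 = D ∧ (a.2 : ℕ) = b.2 := by
      by_contra hne
      exact h (if_neg hne)
    apply sig_ext
    · simp only; omega
    · simp only; omega

theorem ciDual_dual (D : ℕ) (ds : List ℕ) (hds : ∀ d ∈ ds, 1 ≤ d) (a : CIIdx D ds) :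
    ciDual D ds hds (ciDual D ds hds a) = a := by
  rcases a with i | a
  · simp only [ciDual]
    congr 1
    ext
    simp only
    omega
  · simp only [ciDual]
    congr 1
    apply sig_ext
    · simp only; omega
    · simp only

theorem ciEta_symm (D : ℕ) (ds : List ℕ) (a b : CIIdx D ds) :
    ciEta D ds a b = (-1) ^ ((ciP D ds a + ciQ D ds a) * (ciP D ds b + ciQ D ds b)) *
      ciEta D ds b a := by
  rcases a with i | a <;> rcases b with j | b
  · simp only [ciEta, ciP, ciQ]
    rw [Even.neg_one_pow ⟨(i : ℕ) * (j + j), by ring⟩, add_comm (i : ℕ)]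
    simp
  · simp [ciEta]
  · simp [ciEta]
  · simp only [ciEta, ciP, ciQ]
    have ha : (a.1 : ℕ) + (D - a.1) = D := by omega
    have hb : (b.1 : ℕ) + (D - b.1) = D := by omega
    rw [ha, hb]
    have hs : ((b.1 : ℕ) + a.1 = D ∧ (b.2 : ℕ) = a.2) ↔ ((a.1 : ℕ) + b.1 = D ∧ (a.2 : ℕ) = b.2) := by
      omega
    simp only [hs]
    by_cases h : (a.1 : ℕ) + b.1 = D ∧ (a.2 : ℕ) = b.2
    · rw [if_pos h, if_pos h]
      by_cases hD : D % 2 = 1
      · rw [Odd.neg_one_pow (Nat.odd_mul.mpr ⟨Nat.odd_iff.mpr hD, Nat.odd_iff.mpr hD⟩)]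
        by_cases hlt : (b.1 : ℕ) < a.1
        · rw [if_pos ⟨hD, hlt⟩, if_neg (by omega)]; norm_num
        · rw [if_neg (by omega), if_pos (by omega)]; norm_num
      · rw [Even.neg_one_pow ((Nat.even_iff.mpr (by omega : D % 2 = 0)).mul_right D),
          if_neg (by omega), if_neg (by omega)]
        norm_num
    · rw [if_neg h, if_neg h]; simp

theorem ciEta_type (D : ℕ) (ds : List ℕ) (a b : CIIdx D ds) (h : ciEta D ds a b ≠ 0) :
    ciP D ds a + ciP D ds b = D ∧ ciQ D ds a + ciQ D ds b = D := by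
  rcases a with i | a <;> rcases b with j | b
  · simp only [ciEta] at h
    have : (i : ℕ) + j = D := by
      by_contra hne
      exact h (if_neg hne)
    exact ⟨this, this⟩
  · exact absurd rfl h
  · exact absurd rfl h
  · simp only [ciEta] at h
    have h' : (a.1 : ℕ) + b.1 = D ∧ (a.2 : ℕ) = b.2 := by
      by_contra hne
      exact h (if_neg hne)
    simp only [ciP, ciQ]
    omega

theorem ciEta_det (D : ℕ) (ds : List ℕ) (hds : ∀ d ∈ ds, 1 ≤ d) :
    IsUnit (Matrix.of (ciEta D ds)).det := by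
  classical
  let B : Matrix (CIIdx D ds) (CIIdx D ds) ℂ := Matrix.of fun b c =>
    if b = ciDual D ds hds c then (ciEta D ds c b)⁻¹ else 0
  have hB : Matrix.of (ciEta D ds) * B = 1 := by
    ext a c
    rw [Matrix.mul_apply]
    simp only [Matrix.of_apply, B]
    rw [Finset.sum_eq_single (ciDual D ds hds a)]
    · by_cases hac : a = c
      · subst hac
        rw [if_pos rfl, Matrix.one_apply_eq]
        exact mul_inv_cancel₀ (ciEta_dual_ne D ds hds a)
      · rw [if_neg, Matrix.one_apply_ne hac, mul_zero]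
        intro h
        apply hac
        rw [← ciDual_dual D ds hds a, h, ciDual_dual]
    · intro b _ hb
      have : ciEta D ds a b = 0 := by
        by_contra h
        exact hb (ciEta_ne_zero D ds hds a b h)
      rw [this, zero_mul]
    · intro h
      exact absurd (Finset.mem_univ _) h
  have := congrArg Matrix.det hB
  rw [Matrix.det_mul, Matrix.det_one] at this
  exact IsUnit.of_mul_eq_one _ this

theorem ciR_type (D : ℕ) (ds : List ℕ) (a b : CIIdx D ds) (h : ciR D ds a b ≠ 0) :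
    ciP D ds b = ciP D ds a + 1 ∧ ciQ D ds b = ciQ D ds a + 1 := by
  rcases a with i | a <;> rcases b with j | b
  · simp only [ciR] at h
    have : (j : ℕ) = i + 1 := by
      by_contra hne
      exact h (if_neg hne)
    exact ⟨this, this⟩
  · exact absurd rfl h
  · exact absurd rfl h
  · exact absurd rfl h

theorem ciR_mul_eta (D : ℕ) (ds : List ℕ) (a b : CIIdx D ds) :
    ∑ c, ciR D ds a c * ciEta D ds c b =
      match a, b with
      | Sum.inl i, Sum.inl j => if (i : ℕ) + j + 1 = D then (ciC1 D ds : ℂ) * (ds.prod : ℂ) else 0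
      | _, _ => 0 := by
  rw [Fintype.sum_sum_type]
  rcases a with i | a <;> rcases b with j | b
  · simp only [ciR, ciEta]
    simp only [zero_mul, Finset.sum_const_zero, add_zero]
    by_cases h : (i : ℕ) + 1 ≤ D
    · rw [Finset.sum_eq_single (⟨i + 1, by omega⟩ : Fin (D + 1))]
      · simp only [if_true]
        by_cases h2 : (i : ℕ) + j + 1 = D
        · rw [if_pos h2, if_pos (by omega)]
        · rw [if_neg h2, if_neg (by omega)]; simp
      · intro c _ hc
        rw [if_neg, zero_mul]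
        intro h3
        apply hc
        ext
        exact h3
      · intro h4
        exact absurd (Finset.mem_univ _) h4
    · rw [if_neg (by omega)]
      apply Finset.sum_eq_zero
      intro c _
      rw [if_neg (by omega), zero_mul]
  · simp [ciR, ciEta]
  · simp [ciR]
  · simp [ciR]

theorem ciEta_mul_R (D : ℕ) (ds : List ℕ) (a b : CIIdx D ds) :
    ∑ c, ciR D ds b c * ciEta D ds a c =
      match a, b with
      | Sum.inl i, Sum.inl j => if (i : ℕ) + j + 1 = D then (ciC1 D ds : ℂ) * (ds.prod : ℂ) else 0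
      | _, _ => 0 := by
  rw [Fintype.sum_sum_type]
  rcases a with i | a <;> rcases b with j | b
  · simp only [ciR, ciEta]
    simp only [zero_mul, Finset.sum_const_zero, add_zero]
    by_cases h : (j : ℕ) + 1 ≤ D
    · rw [Finset.sum_eq_single (⟨j + 1, by omega⟩ : Fin (D + 1))]
      · simp only [if_true]
        by_cases h2 : (i : ℕ) + j + 1 = D
        · rw [if_pos h2, if_pos (by omega)]
        · rw [if_neg h2, if_neg (by omega)]; simp
      · intro c _ hc
        rw [if_neg, zero_mul]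
        intro h3
        apply hc
        ext
        exact h3
      · intro h4
        exact absurd (Finset.mem_univ _) h4
    · rw [if_neg (by omega)]
      apply Finset.sum_eq_zero
      intro c _
      rw [if_neg (by omega), zero_mul]
  · simp [ciR]
  · simp [ciR, ciEta]
  · simp [ciR]

theorem ci_sum (D : ℕ) (ds : List ℕ) (f : ℕ → ℂ) :
    ∑ a : CIIdx D ds, (-1 : ℂ) ^ (ciP D ds a + ciQ D ds a) * f (ciP D ds a) =
      ∑ p ∈ Finset.range (D + 1), (sdim D ds p : ℂ) * f p := by
  rw [Fintype.sum_sum_type, Fintype.sum_sigma]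
  have h0 : ∑ i : Fin (D + 1), (-1 : ℂ) ^ (ciP D ds (Sum.inl i) + ciQ D ds (Sum.inl i)) *
      f (ciP D ds (Sum.inl i)) = ∑ p ∈ Finset.range (D + 1), (-1 : ℂ) ^ (p + p) * f p := by
    rw [Finset.sum_range (fun p => (-1 : ℂ) ^ (p + p) * f p)]
    rfl
  rw [h0]
  have : ∀ p : Fin (D + 1), ∑ j : Fin (hprim D ds p), (-1 : ℂ) ^ (ciP D ds (Sum.inr ⟨p, j⟩) +
      ciQ D ds (Sum.inr ⟨p, j⟩)) * f (ciP D ds (Sum.inr ⟨p, j⟩)) =
      (fun p : ℕ => (-1) ^ D * (hprim D ds p : ℂ) * f p) p := by
    intro p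
    simp only [ciP, ciQ]
    rw [Finset.sum_const, Finset.card_univ, Fintype.card_fin]
    have hp : (p : ℕ) + (D - p) = D := by omega
    rw [hp, nsmul_eq_mul]
    ring
  rw [Finset.sum_congr rfl fun p _ => this p, ← Finset.sum_range
    (fun p : ℕ => (-1) ^ D * (hprim D ds p : ℂ) * f p), ← Finset.sum_add_distrib]
  apply Finset.sum_congr rfl
  intro p _
  rw [sdim, Even.neg_one_pow ⟨p, rfl⟩]
  push_cast
  ring

theorem chernT_eq' {D : ℕ} (hD : 1 ≤ D) (ds : List ℕ) :
    chernT (D + ds.length) ds = chernNum (D + ds.length) ds (D - 1) := by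
  obtain ⟨k, rfl⟩ : ∃ k, D = k + 1 := ⟨D - 1, by omega⟩
  rw [chernT_eq]
  rfl

theorem ci_LW {D : ℕ} (hD : 1 ≤ D) (ds : List ℕ) (hds : ∀ d ∈ ds, 1 ≤ d) :
    ∑ a : CIIdx D ds, (-1 : ℂ) ^ (ciP D ds a + ciQ D ds a) * ((ciP D ds a : ℂ) - D / 2) ^ 2
    = D / 12 * (∑ a : CIIdx D ds, (-1 : ℂ) ^ (ciP D ds a + ciQ D ds a))
      + (ciC1CD1 D ds : ℂ) / 6 := by
  have h1 := ci_sum D ds (fun p => ((p : ℂ) - D / 2) ^ 2)
  have h2 := ci_sum D ds (fun _ => 1)
  simp only [mul_one] at h2
  rw [h1, h2]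
  have g := gaussBonnet hds (D := D)
  have l := libgoberWood hds (D := D)
  rw [c1cD1, chernT_eq' hD] at l
  have g' := congrArg (Int.cast : ℤ → ℂ) g
  have l' := congrArg (Int.cast : ℤ → ℂ) l
  rw [ciC1CD1, ciC1]
  push_cast at g' l' ⊢
  rw [g']
  have e : ∑ p ∈ Finset.range (D + 1), (sdim D ds p : ℂ) * ((p : ℂ) - D / 2) ^ 2 =
      1 / 4 * ∑ p ∈ Finset.range (D + 1), (sdim D ds p : ℂ) * (2 * p - D) ^ 2 := by
    rw [Finset.mul_sum]
    apply Finset.sum_congr rfl
    intro p _
    ring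
  rw [e]
  linear_combination l' / 12

theorem ciR_adj (D : ℕ) (ds : List ℕ) (a b : CIIdx D ds) :
    ∑ c, ciR D ds a c * ciEta D ds c b = ∑ c, ciR D ds b c * ciEta D ds a c := by
  rw [ciR_mul_eta, ciEta_mul_R]

theorem ci_eq_one (D : ℕ) (ds : List ℕ) (hD : 2 ≤ D) (a : CIIdx D ds) (h1 : ciP D ds a = 0)
    (h2 : ciQ D ds a = 0) : a = Sum.inl 0 := by
  rcases a with i | a
  · simp only [ciP] at h1
    congr 1
    ext
    simpa using h1
  · simp only [ciP, ciQ] at h1 h2
    omega

theorem ci_no_H1 (D : ℕ) (ds : List ℕ) (hD : 2 ≤ D) (a : CIIdx D ds) :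
    ciP D ds a + ciQ D ds a ≠ 1 := by
  rcases a with i | a
  · simp only [ciP, ciQ]; omega
  · simp only [ciP, ciQ]; omega

end Vale.Agent.P269.H707
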