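import Vale.Agent.P269.H707.Alg

/-! # The degree zero Gromov-Witten system (helper707) -/

set_option autoImplicit false

namespace Vale.Agent.P269.H707

open Vale.Agent.P269.H207 Matrix

/-- Chern classes needed in degree zero -/
structure ChernData (X : Target) (A : CupAlg X) where
  /-- the point class -/
  pt : X.ι → ℂ
  /-- the class `c_{D-1}(X)` -/
  cD1 : X.ι → ℂ
  pt_type : ∀ a, pt a ≠ 0 → X.p a = X.D ∧ X.q a = X.D
  cD1_type : ∀ a, cD1 a ≠ 0 → X.p a = X.D - 1 ∧ X.q a = X.D - 1
  pt_tr : ∑ a, pt a * A.tr a = 1
  /-- `∫ c_{D-1} c_1` -/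
  cD1_c1 : ∑ a, (cD1 ᵥ* X.R) a * A.tr a = X.c1cD1

variable {X : Target} (A : CupAlg X) (C : ChernData X A)

/-- The degree zero Gromov-Witten invariants of `X`:
* genus 0: `⟨τ_{m₁}(φ_{a₁}) ⋯ τ_{mₙ}(φ_{aₙ})⟩ = (n-3)!/∏ mᵢ! ∫ φ_{a₁} ⋯ φ_{aₙ}` (`∑ mᵢ = n - 3`);
* genus 1: the Taylor coefficients of `1/24 ∫ (c_D log u' - c_{D-1} u)`;
* genus `g ≥ 2`: the Taylor coefficients of `N_g (u')^{2g-2}` if `D = 3`, and `0` if `D ≠ 3`;
and all invariants of positive degree are zero. -/
noncomputable def gwDeg0 (N : ℕ → ℂ) : ℕ → ℕ → List X.V → ℂ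
  | 0, 0 => gf A MM (Pi.single X.one 1)
  | 1, 0 => gf A WW ((X.chi / 24) • C.pt) + gf A NN ((-1 / 24 : ℂ) • C.cD1)
  | g + 2, 0 => if X.D = 3 then N (g + 2) • gf A (pw (2 * g + 2)) C.pt else 0
  | _, _ + 1 => 0

theorem gwDeg0_pos (N : ℕ → ℂ) (g d : ℕ) : gwDeg0 A C N g (d + 1) = 0 := by
  rcases g with _ | _ | g <;> rfl

theorem gwDeg0_zero (N : ℕ → ℂ) : gwDeg0 A C N 0 0 = gf A MM (Pi.single X.one 1) := rfl

theorem gwDeg0_one (N : ℕ → ℂ) : gwDeg0 A C N (0 + 1) 0 =
    gf A WW ((X.chi / 24) • C.pt) + gf A NN ((-1 / 24 : ℂ) • C.cD1) := rfl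

theorem gwDeg0_two (N : ℕ → ℂ) (g : ℕ) : gwDeg0 A C N (g + 1 + 1) 0 =
    if X.D = 3 then N (g + 2) • gf A (pw (2 * g + 2)) C.pt else 0 := rfl

theorem ig_pt_R : ig A (C.pt ᵥ* X.R) = 0 := by
  funext L
  by_contra h
  have := ig_type A (κ := C.pt ᵥ* X.R) (r := X.D + 1) (s := X.D + 1) (by
    intro b hb
    obtain ⟨a, _, ha⟩ := Finset.exists_ne_zero_of_sum_ne_zero hb
    have h1 := C.pt_type a (left_ne_zero_of_mul ha)
    have h2 := X.R_type a b (right_ne_zero_of_mul ha)
    omega) h
  omega

theorem ig_cD1_nil (hD : 1 ≤ X.D) : ig A C.cD1 [] = 0 := by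
  by_contra h
  have := ig_type A (κ := C.cD1) (r := X.D - 1) (s := X.D - 1) C.cD1_type h
  simp at this
  omega

theorem ig_one_two (a b : X.V) : ig A (Pi.single X.one 1) [a, b] = X.η a.2 b.2 := by
  rw [ig_cons, Matrix.single_one_vecMul, ig_cons]
  have : (A.rm a.2).row X.one = Pi.single a.2 1 := A.one_rm a.2
  rw [this, Matrix.single_one_vecMul]
  exact A.eta_eq a.2 b.2

theorem SSym.zero' : SSym X.par (0 : List X.V → ℂ) := by
  intro K x y L; simp

theorem dimsum (X : Target) (f : X.ι → ℕ) (L : List X.V) :
    (L.map fun x => (x.1 : ℤ) + f x.2).sum =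
      ((L.map Prod.fst).sum : ℤ) + ((L.map fun x => f x.2).sum : ℤ) := by
  induction L with
  | nil => simp
  | cons x L ih =>
    simp only [List.map_cons, List.sum_cons, ih]
    rw [Nat.cast_add, Nat.cast_add]
    ring

theorem single_type (X : Target) : ∀ a, (Pi.single X.one 1 : X.ι → ℂ) a ≠ 0 →
    X.p a = 0 ∧ X.q a = 0 := by
  intro a ha
  have : a = X.one := by
    by_contra h
    exact ha (Pi.single_eq_of_ne h 1)
  rw [this]
  exact ⟨X.p_one, X.q_one⟩

theorem low_add' (L : List X.V) (f f' : List X.V → ℂ) :
    low X L (f + f') = low X L f + low X L f' := by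
  induction L generalizing f f' with
  | nil => simp [low]
  | cons x L ih =>
    obtain ⟨m, a⟩ := x
    simp only [low, dd_add, Pi.add_apply]
    rw [ih]
    split_ifs <;> ring

theorem low_smul' (L : List X.V) (c : ℂ) (f : List X.V → ℂ) :
    low X L (c • f) = c * low X L f := by
  induction L generalizing f with
  | nil => simp [low]
  | cons x L ih =>
    obtain ⟨m, a⟩ := x
    simp only [low, dd_smul, Pi.smul_apply, smul_eq_mul]
    rw [ih]
    split_ifs <;> ring

theorem low_zero' (L : List X.V) : low X L (0 : List X.V → ℂ) = 0 := by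
  have := low_smul' L (0 : ℂ) (0 : List X.V → ℂ)
  simpa using this

theorem lowR_add' (L : List X.V) (f f' : List X.V → ℂ) :
    lowR X L (f + f') = lowR X L f + lowR X L f' := by
  induction L generalizing f f' with
  | nil => simp [lowR]
  | cons x L ih =>
    obtain ⟨m, a⟩ := x
    simp only [lowR, dd_add, Pi.add_apply]
    rw [ih]
    simp only [mul_add, Finset.sum_add_distrib]
    split_ifs <;> ring

theorem lowR_smul' (L : List X.V) (c : ℂ) (f : List X.V → ℂ) :
    lowR X L (c • f) = c * lowR X L f := by
  induction L generalizing f with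
  | nil => simp [lowR]
  | cons x L ih =>
    obtain ⟨m, a⟩ := x
    simp only [lowR, dd_smul, Pi.smul_apply, smul_eq_mul]
    rw [ih, mul_add, mul_ite, mul_zero, Finset.mul_sum]
    congr 1
    split_ifs
    · rfl
    · apply Finset.sum_congr rfl
      intro b _
      ring

theorem lowR_zero' (L : List X.V) : lowR X L (0 : List X.V → ℂ) = 0 := by
  have := lowR_smul' L (0 : ℂ) (0 : List X.V → ℂ)
  simpa using this

theorem dim_aux (f : X.ι → ℕ) (N : ℕ → ℂ)
    (hpt : ∀ L, ig A C.pt L ≠ 0 → X.D + (L.map fun x => f x.2).sum = X.D)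
    (hc : ∀ L, ig A C.cD1 L ≠ 0 → X.D - 1 + (L.map fun x => f x.2).sum = X.D)
    (h1 : ∀ L, ig A (Pi.single X.one 1) L ≠ 0 → (L.map fun x => f x.2).sum = X.D)
    (hD : 3 ≤ X.D) (g d : ℕ) (L : List X.V) (h : gwDeg0 A C N g d L ≠ 0) :
    (L.map fun x => (x.1 : ℤ) + f x.2).sum = (1 - g) * (X.D - 3) + X.c1 * d + L.length := by
  rw [dimsum]
  rcases d with _ | d
  · rcases g with _ | _ | g
    · simp only [gwDeg0, gf] at h
      have h2 := MM_dim (left_ne_zero_of_mul h)
      have h3 := h1 L (right_ne_zero_of_mul h)
      rw [List.length_map] at h2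
      generalize (List.map Prod.fst L).sum = S1 at *
      generalize (List.map (fun x => f x.2) L).sum = S2 at *
      push_cast
      omega
    · simp only [gwDeg0, Pi.add_apply] at h
      have h' : gf A WW ((X.chi / 24) • C.pt) L ≠ 0 ∨ gf A NN ((-1 / 24 : ℂ) • C.cD1) L ≠ 0 := by
        by_contra hc
        push Not at hc
        rw [hc.1, hc.2, add_zero] at h
        exact h rfl
      rcases h' with h' | h'
      · simp only [gf] at h'
        have h2 := WW_dim (left_ne_zero_of_mul h')
        have h3 := right_ne_zero_of_mul h'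
        rw [ig_smul, Pi.smul_apply] at h3
        have h4 := hpt L (right_ne_zero_of_smul h3)
        rw [List.length_map] at h2
        generalize (List.map Prod.fst L).sum = S1 at *
        generalize (List.map (fun x => f x.2) L).sum = S2 at *
        push_cast
        omega
      · simp only [gf] at h'
        have h2 := NN_dim (left_ne_zero_of_mul h')
        have h3 := right_ne_zero_of_mul h'
        rw [ig_smul, Pi.smul_apply] at h3
        have h4 := hc L (right_ne_zero_of_smul h3)
        rw [List.length_map] at h2
        generalize (List.map Prod.fst L).sum = S1 at *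
        generalize (List.map (fun x => f x.2) L).sum = S2 at *
        push_cast
        omega
    · simp only [gwDeg0] at h
      split_ifs at h with h3
      · simp only [Pi.smul_apply, smul_eq_mul, gf] at h
        have h' := right_ne_zero_of_mul h
        have h2 := pw_dim _ (left_ne_zero_of_mul h')
        have h4 := hpt L (right_ne_zero_of_mul h')
        rw [List.length_map] at h2
        generalize (List.map Prod.fst L).sum = S1 at *
        generalize (List.map (fun x => f x.2) L).sum = S2 at *
        rw [h3]
        push_cast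
        have h5 : S2 = 0 := by omega
        rw [h5, h2]
        ring
      · exact absurd rfl h
  · rw [gwDeg0_pos] at h
    exact absurd rfl h

/-- The degree zero system satisfies the axioms. -/
theorem isGW_deg0 (hD : 3 ≤ X.D) (N : ℕ → ℂ) : IsGW X (gwDeg0 A C N) where
  symm := by
    intro g d
    rcases d with _ | d
    · rcases g with _ | _ | g
      · exact gf_symm A MM_symm _
      · exact (gf_symm A WW_symm _).add (gf_symm A NN_symm _)
      · simp only [gwDeg0]
        split_ifs
        · exact (gf_symm A (pw_symm _) _).smul _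
        · exact SSym.zero'
    · rw [gwDeg0_pos]
      exact SSym.zero'
  unstable0 := by
    intro L hL
    simp only [gwDeg0, gf]
    have : MM (L.map Prod.fst) = 0 := by
      rw [MM, if_neg]
      rw [List.length_map]
      omega
    rw [this, zero_mul]
  unstable1 := by
    simp [gwDeg0, gf, WW_nil, NN_nil]
  dim_p := fun g d L h => dim_aux A C X.p N (fun L h => (ig_type A C.pt_type h).1)
    (fun L h => (ig_type A C.cD1_type h).1)
    (fun L h => by simpa using (ig_type A (single_type X) h).1) hD g d L h
  dim_q := fun g d L h => dim_aux A C X.q N (fun L h => (ig_type A C.pt_type h).2)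
    (fun L h => (ig_type A C.cD1_type h).2)
    (fun L h => by simpa using (ig_type A (single_type X) h).2) hD g d L h
  string := by
    intro g d L
    have gs : ∀ (n : List ℕ → ℂ) (κ : X.ι → ℂ), gf A n κ ((0, X.one) :: L) =
        dd 0 n (L.map Prod.fst) * ig A κ L := by
      intro n κ
      simp only [gf, List.map_cons, ig_cons, A.rm_one, Matrix.vecMul_one, dd_apply]
    have la := low_add' (X := X) L
    have ls := low_smul' (X := X) L
    rcases d with _ | d
    · rcases g with _ | _ | g
      · rw [gwDeg0_zero]
        rw [gs, MM_string, low_gf, Pi.add_apply, add_mul, if_pos ⟨rfl, rfl⟩]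
        congr 1
        match L with
        | [] => simp [E2, quad]
        | [a] => simp [E2, quad]
        | [a, b] =>
          rw [ig_one_two]
          simp only [E2, quad, CK, pow_zero, one_mul, Algebra.algebraMap_self_apply]
          simp only [List.map_cons, List.map_nil, List.cons.injEq, and_true]
          split_ifs <;> simp
        | a :: b :: c :: L => simp [E2, quad]
      · rw [gwDeg0_one]
        rw [Pi.add_apply, gs, gs, WW_string, NN_string, la, low_gf, low_gf, Pi.add_apply, add_mul,
          if_neg (by omega)]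
        have : cst 1 (List.map Prod.fst L) * ig A ((-1 / 24 : ℂ) • C.cD1) L = 0 := by
          cases L with
          | nil => rw [ig_smul, Pi.smul_apply, ig_cD1_nil A C (by omega)]; simp
          | cons x L => simp [cst]
        rw [this]
        ring
      · rw [gwDeg0_two, if_neg (by omega : ¬ (g + 1 + 1 = 0 ∧ 0 = 0))]
        split_ifs with h3
        · rw [Pi.smul_apply, gs, pw_string, ls, low_gf]
          simp
        · rw [low_zero']
          simp
    · rw [gwDeg0_pos, low_zero']
      simp
  dilaton := by
    intro g d L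
    have gd : ∀ (n : List ℕ → ℂ) (κ : X.ι → ℂ), gf A n κ ((1, X.one) :: L) =
        dd 1 n (L.map Prod.fst) * ig A κ L := by
      intro n κ
      simp only [gf, List.map_cons, ig_cons, A.rm_one, Matrix.vecMul_one, dd_apply]
    rcases d with _ | d
    · rcases g with _ | _ | g
      · rw [gwDeg0_zero]
        rw [gd, dd_apply, MM_dilaton, if_neg (by omega), List.length_map, gf]
        push_cast
        ring
      · rw [gwDeg0_one, Pi.add_apply, Pi.add_apply]
        rw [gd, gd, WW_dilaton, NN_dilaton, Pi.add_apply]
        have : cst 1 (List.map Prod.fst L) * ig A ((X.chi / 24) • C.pt) L =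
            if 0 + 1 = 1 ∧ 0 = 0 ∧ L = [] then X.chi / 24 else 0 := by
          cases L with
          | nil =>
            rw [ig_smul, Pi.smul_apply, ig, C.pt_tr]
            simp [cst]
          | cons x L => simp [cst]
        rw [← this]
        simp only [EE, gf, List.length_map]
        push_cast
        ring
      · rw [gwDeg0_two, if_neg (by omega : ¬ (g + 1 + 1 = 1 ∧ 0 = 0 ∧ L = []))]
        split_ifs with h3
        · rw [Pi.smul_apply, gd, pw_dilaton]
          simp only [EE, gf, List.length_map, Pi.add_apply, Pi.smul_apply, smul_eq_mul]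
          push_cast
          ring
        · simp
    · rw [gwDeg0_pos]
      simp
  divisor := by
    intro g d L
    have gd : ∀ (n : List ℕ → ℂ) (κ : X.ι → ℂ), ∑ b, X.R X.one b * gf A n κ ((0, b) :: L) =
        dd 0 n (L.map Prod.fst) * ig A (κ ᵥ* X.R) L := by
      intro n κ
      exact sum_R_gf A n κ L
    have la := lowR_add' (X := X) L
    have ls := lowR_smul' (X := X) L
    rcases d with _ | d
    · rcases g with _ | _ | g
      · rw [gwDeg0_zero]
        rw [gd, MM_string, lowR_gf, Pi.add_apply, add_mul, if_pos ⟨rfl, rfl⟩,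
          if_neg (by omega)]
        have : E2 (List.map Prod.fst L) * ig A (Pi.single X.one 1 ᵥ* X.R) L = quad (CK X ℂ 1) L := by
          match L with
          | [] => simp [E2, quad]
          | [a] => simp [E2, quad]
          | [a, b] =>
            have h1 : ig A (Pi.single X.one 1 ᵥ* X.R) [a, b] = (X.R * X.η) a.2 b.2 := by
              have h0 : X.R * (A.rm a.2 * A.rm b.2) = A.rm a.2 * (X.R * A.rm b.2) := by
                rw [← mul_assoc, A.R_comm, mul_assoc]
              rw [ig_cons, ig_cons, Matrix.vecMul_vecMul, Matrix.vecMul_vecMul, h0,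
                ← Matrix.vecMul_vecMul, Matrix.single_one_vecMul]
              have h2 : (A.rm a.2).row X.one = Pi.single a.2 1 := A.one_rm a.2
              rw [h2, Matrix.single_one_vecMul]
              change ((X.R * A.rm b.2) a.2) ⬝ᵥ A.tr = _
              have h3 : ((X.R * A.rm b.2) a.2) ⬝ᵥ A.tr = (X.R a.2) ⬝ᵥ (A.rm b.2 *ᵥ A.tr) := by
                rw [Matrix.dotProduct_mulVec]
                rfl
              rw [h3, Matrix.mul_apply]
              apply Finset.sum_congr rfl
              intro c _
              congr 1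
              exact A.eta_eq c b.2
            rw [h1]
            simp only [E2, quad, CK, pow_one, Algebra.algebraMap_self_apply]
            simp only [List.map_cons, List.map_nil, List.cons.injEq, and_true]
            split_ifs <;> simp
          | a :: b :: c :: L => simp [E2, quad]
        rw [this]
        push_cast
        ring
      · rw [gwDeg0_one]
        simp only [Pi.add_apply, mul_add, Finset.sum_add_distrib, zero_add, true_and]
        rw [gd, gd, WW_string, NN_string, la, lowR_gf, lowR_gf, Pi.add_apply, if_neg (by omega)]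
        have h1 : ig A (((X.chi / 24) • C.pt) ᵥ* X.R) L = 0 := by
          rw [Matrix.smul_vecMul, ig_smul, ig_pt_R]
          simp
        have h2 : cst 1 (List.map Prod.fst L) * ig A (((-1 / 24 : ℂ) • C.cD1) ᵥ* X.R) L =
            if L = [] then -X.c1cD1 / 24 else 0 := by
          cases L with
          | nil =>
            rw [Matrix.smul_vecMul, ig_smul, Pi.smul_apply, ig, C.cD1_c1]
            simp [cst]
            ring
          | cons x L => simp [cst]
        rw [← h2, h1]
        push_cast
        ring
      · rw [gwDeg0_two, if_neg (by omega : ¬ (g + 1 + 1 = 0 ∧ 0 = 0)),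
          if_neg (by omega : ¬ (g + 1 + 1 = 1 ∧ 0 = 0 ∧ L = []))]
        split_ifs with h3
        · have h4 := gd (pw (2 * g + 2)) C.pt
          have h5 : ∑ b, X.R X.one b * (N (g + 2) • gf A (pw (2 * g + 2)) C.pt) ((0, b) :: L) =
              N (g + 2) * ∑ b, X.R X.one b * gf A (pw (2 * g + 2)) C.pt ((0, b) :: L) := by
            rw [Finset.mul_sum]
            apply Finset.sum_congr rfl
            intro b _
            simp only [Pi.smul_apply, smul_eq_mul]
            ring
          rw [h5, h4, ls, lowR_gf, ig_pt_R]
          simp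
        · rw [lowR_zero']
          simp
    · rw [gwDeg0_pos, lowR_zero']
      simp
  trr := by
    intro d m a x y
    rcases d with _ | d
    · have h0 : Finset.HasAntidiagonal.antidiagonal (0 : ℕ) = {((0 : ℕ), (0 : ℕ))} := rfl
      rw [h0, Finset.sum_singleton]
      rw [gwDeg0_zero]
      funext L
      rw [dd_gf, dd_gf, dd_gf]
      have hv : ∀ b, (Pi.single X.one 1 : X.ι → ℂ) ᵥ* A.rm b = Pi.single b 1 := by
        intro b
        rw [Matrix.single_one_vecMul]
        exact A.one_rm b
      have h1 := split A (dd 0 (dd m MM)) (dd y.1 (dd x.1 (dd 0 MM))) (Pi.single a 1)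
        (A.rm x.2 * A.rm y.2) (X.par x + X.par y) (by
          intro z
          rw [← mul_assoc, A.rm_comm z x.2, Matrix.smul_mul, mul_assoc, A.rm_comm z y.2,
            Matrix.mul_smul, smul_smul, ← mul_assoc, ← pow_add]
          congr 2
          simp only [Target.par]
          ring) L
      rw [Finset.sum_apply]
      have h2 : ∀ c, (∑ c', X.η⁻¹ c c' •
          smul2 X.par (tw X.par (X.par (0, c') + X.par x + X.par y)
            (dd (0, c) (dd (m, a) (gf A MM (Pi.single X.one 1)))))
            (dd y (dd x (dd (0, c') (gf A MM (Pi.single X.one 1)))))) L =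
          ∑ c', X.η⁻¹ c c' *
            smul2 X.par (tw X.par (X.par (0, c') + (X.par x + X.par y))
              (gf A (dd 0 (dd m MM)) (Pi.single a 1 ᵥ* A.rm c)))
              (gf A (dd y.1 (dd x.1 (dd 0 MM))) ((A.rm x.2 * A.rm y.2) c')) L := by
        intro c
        rw [Finset.sum_apply]
        apply Finset.sum_congr rfl
        intro c' _
        rw [Pi.smul_apply, smul_eq_mul]
        congr 1
        rw [dd_gf, dd_gf, dd_gf, dd_gf, dd_gf]
        simp only [hv, add_assoc]
        congr 2
        rw [Matrix.vecMul_vecMul, Matrix.single_one_vecMul]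
        rfl
      rw [Finset.sum_congr rfl fun c _ => h2 c, h1]
      simp only [gf, hv]
      rw [Matrix.vecMul_vecMul]
      congr 1
      exact MM_trr _ _ rfl m x.1 y.1
    · rw [gwDeg0_pos]
      simp only [dd_zero]
      symm
      apply Finset.sum_eq_zero
      intro e he
      rw [Finset.HasAntidiagonal.mem_antidiagonal] at he
      apply Finset.sum_eq_zero
      intro c _
      apply Finset.sum_eq_zero
      intro c' _
      rcases Nat.eq_zero_or_pos e.1 with h | h
      · have : e.2 = (e.2 - 1) + 1 := by omega
        rw [this, gwDeg0_pos]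
        simp
      · have : e.1 = (e.1 - 1) + 1 := by omega
        rw [this, gwDeg0_pos]
        simp

end Vale.Agent.P269.H707
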