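import Mathlib

/-! # Hodge numbers and Chern numbers of complete intersections: definitions (helper707)

`chiY N ds` : Hirzebruch's `χ_y`-genus of a complete intersection of multidegree `ds` in `P^N`,
as the coefficient of `z^N` in
`1/((1-z)(1+zy)) * ∏ ((1+zy)^d - (1-z)^d)/((1+zy)^d + y(1-z)^d)`.
-/

namespace Vale.Agent.P269.H707

open PowerSeries

noncomputable section

/-- the variable `y` -/
abbrev yy : Polynomial ℤ := Polynomial.X

/-- `1 + y z`, a power series in `z` over `ℤ[y]` -/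
def rr : PowerSeries (Polynomial ℤ) := 1 + C yy * X

/-- `((1+zy)^d - (1-z)^d)/(1+y)`. -/
def hirzNum (d : ℕ) : PowerSeries (Polynomial ℤ) :=
  X * ∑ j ∈ Finset.range d, rr ^ j * (1 - X) ^ (d - 1 - j)

/-- `((1+zy)^d + y (1-z)^d)/(1+y)`. -/
def hirzDen (d : ℕ) : PowerSeries (Polynomial ℤ) := (1 - X) ^ d + hirzNum d

/-- the factor `((1+zy)^d - (1-z)^d)/((1+zy)^d + y(1-z)^d)` in Hirzebruch's formula -/
def hirzF (d : ℕ) : PowerSeries (Polynomial ℤ) := hirzNum d * invOfUnit (hirzDen d) 1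

/-- `1/((1-z)(1+zy))` -/
def hirzB : PowerSeries (Polynomial ℤ) := invOfUnit ((1 - X) * rr) 1

/-- Hirzebruch's `χ_y`-genus of a complete intersection of multidegree `ds` in `P^N`. -/
def chiY (N : ℕ) (ds : List ℕ) : Polynomial ℤ :=
  coeff N (hirzB * (ds.map hirzF).prod)

/-- total Chern class `c(TX) = (1+h)^(N+1)/∏(1 + d h)` of a complete intersection of multidegree
`ds` in `P^N`. -/
def chernSeries (N : ℕ) (ds : List ℕ) : PowerSeries ℤ :=
  (1 + X) ^ (N + 1) * (ds.map fun d : ℕ => invOfUnit (1 + C (d : ℤ) * X) 1).prod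

/-- `∫_X c_j(TX) h^{D-j} = (∏ d_i) * [h^j] c(TX)` -/
def chernNum (N : ℕ) (ds : List ℕ) (j : ℕ) : ℤ :=
  (ds.map (fun d : ℕ => (d : ℤ))).prod * coeff j (chernSeries N ds)

/-- primitive Hodge number `h^{p,D-p}_prim` of a complete intersection of dimension `D` and
multidegree `ds` (in `P^{D+len}`), read off from the `χ_y` genus:
`χ^p = ∑_q (-1)^q h^{p,q} = (-1)^p + (-1)^{D-p} h^{p,D-p}_prim` for `p ≤ D`. -/
def hprim (D : ℕ) (ds : List ℕ) (p : ℕ) : ℕ :=
  if p ≤ D then ((-1) ^ (D + p) * ((chiY (D + ds.length) ds).coeff p - (-1) ^ p)).toNat else 0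

end

end Vale.Agent.P269.H707
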