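import Vale.Agent.P269.H207.Defs
import Vale.Agent.P269.H207.Descent

/-! # The constraint `L_0` (helper707)

Hori's argument: dilaton + divisor equation + dimension constraint + Libgober-Wood. -/

set_option autoImplicit false

namespace Vale.Agent.P269.H707

open Vale.Agent.P269.H207 Finset

variable (X : Target)

theorem br_one_zero (x : ℂ) : br 1 0 x = x := by
  simp [br]

theorem br_one_one (x : ℂ) : br 1 1 x = 1 := by
  simp [br, Polynomial.coeff_X]

theorem dv_ite_single {α R : Type*} [CommRing R] {c : Prop} [Decidable c] (x : α) (a : R)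
    (f : List α → R) (L : List α) :
    dv (if c then Finsupp.single x a else 0) f L = if c then a * f (x :: L) else 0 := by
  split_ifs
  · simp
  · simp

theorem dv_AK_one (R' : Type*) [CommRing R'] [Algebra ℂ R'] (x : X.V) (f : List X.V → R')
    (L : List X.V) :
    dv (AK X R' 1 x) f L = algebraMap ℂ R' (X.b x.2 + x.1) * f (x :: L) +
      (if x.1 = 0 then 0 else ∑ b : X.ι, algebraMap ℂ R' (X.R x.2 b) * f ((x.1 - 1, b) :: L)) := by
  obtain ⟨m, a⟩ := x
  simp only [AK]
  rw [dv_finsetSum, Finset.sum_apply, Finset.sum_range_succ, Finset.sum_range_one,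
    dv_finsetSum, dv_finsetSum, Finset.sum_apply, Finset.sum_apply]
  simp only [dv_ite_single]
  congr 1
  · simp only [br_one_zero, pow_zero]
    rw [Finset.sum_eq_single a]
    · simp
    · intro b _ hb
      rw [Matrix.one_apply_ne hb.symm]
      simp
    · intro h; exact absurd (Finset.mem_univ _) h
  · simp only [br_one_one, pow_one, one_mul]
    by_cases hm : m = 0
    · subst hm
      simp
    · rw [if_neg hm]
      apply Finset.sum_congr rfl
      intro b _
      rw [if_pos (by omega)]
      have : m + 1 - 1 - 1 = m - 1 := by omega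
      rw [this]

theorem vf_AK_one (x : List X.V) : ∀ (f : List X.V → ℂ),
    vf (AK X ℂ 1) f x = (x.map fun y => X.b y.2 + y.1).sum * f x + lowR X x f := by
  induction x with
  | nil => intro f; simp [lowR]
  | cons y L ih =>
    intro f
    rw [vf_cons, dv_AK_one, ih]
    obtain ⟨m, a⟩ := y
    simp only [lowR, List.map_cons, List.sum_cons, dd_apply, Algebra.algebraMap_self_apply]
    ring

theorem sum_b (L : List X.V) : (L.map fun y => X.b y.2 + y.1).sum =
    (((L.map fun x => (x.1 : ℤ) + X.p x.2).sum : ℤ) : ℂ) + L.length * ((1 - X.D) / 2) := by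
  induction L with
  | nil => simp
  | cons y L ih =>
    simp only [List.map_cons, List.sum_cons, List.length_cons]
    rw [ih]
    simp only [Target.b]
    push_cast
    ring

/-- `L_0` in every genus and degree. -/
theorem L0 {GW : ℕ → ℕ → List X.V → ℂ} (h : IsGW X GW) (g d : ℕ) (L : List X.V) :
    - dv (AK X ℂ 1 (1, X.one)) (GW g d) L + vf (AK X ℂ 1) (GW g d) L
      + (if g = 0 ∧ d = 0 then quad (CK X ℂ 1) L else 0)
      + (if g = 1 ∧ d = 0 then cst (X.chi / 16 - X.strMu2 / 4) L else 0) = 0 := by
  have hdil := h.dilaton g d L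
  have hdiv := h.divisor g d L
  have hdim := h.dim_p g d L
  have hLW := X.libgober_wood
  rw [dv_AK_one, vf_AK_one]
  simp only [if_neg (one_ne_zero), Algebra.algebraMap_self_apply]
  rw [show ((1 : ℕ) - 1) = 0 from rfl, hdil, hdiv]
  have key : ((L.map fun y => X.b y.2 + y.1).sum - (X.b X.one + ((1 : ℕ) : ℂ)) * (2 * g - 2 + L.length)
      - X.c1 * d) * GW g d L = 0 := by
    by_cases h0 : GW g d L = 0
    · rw [h0, mul_zero]
    · have := hdim h0
      rw [sum_b, this]
      have hb : X.b X.one = (1 - X.D) / 2 := by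
        rw [Target.b, X.p_one]; push_cast; ring
      rw [hb]
      push_cast
      ring
  have hconst : (if g = 1 ∧ d = 0 then cst (X.chi / 16 - X.strMu2 / 4) L else 0) =
      (X.b X.one + ((1 : ℕ) : ℂ)) * (if g = 1 ∧ d = 0 ∧ L = [] then X.chi / 24 else 0) +
      (if g = 1 ∧ d = 0 ∧ L = [] then -X.c1cD1 / 24 else 0) := by
    by_cases hg : g = 1 ∧ d = 0
    · rw [if_pos hg]
      cases L with
      | nil =>
        rw [if_pos ⟨hg.1, hg.2, rfl⟩, if_pos ⟨hg.1, hg.2, rfl⟩]
        simp only [cst]
        have hb : X.b X.one = (1 - X.D) / 2 := by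
          rw [Target.b, X.p_one]; push_cast; ring
        rw [hb]
        simp only [Target.chi, Target.strMu2]
        push_cast
        rw [hLW]
        ring
      | cons y L =>
        simp [cst]
    · rw [if_neg hg, if_neg (by tauto), if_neg (by tauto)]
      simp
  rw [hconst]
  linear_combination key

end Vale.Agent.P269.H707
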