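import Vale.Agent.P269.H207.Super

/-! # Numeric descendant functions (point theory in genus 0 and its derived functions)

Functions `List ℕ → ℂ` of the descendant exponents only. -/

set_option autoImplicit false

namespace Vale.Agent.P269.H707

open Vale.Agent.P269.H207

section Pr

variable {α : Type*}

/-- product of (non-super) formal power series -/
def pr (f g : List α → ℂ) : List α → ℂ := smul2 (fun _ => 0) f g

theorem tw0 (n : ℕ) (f : List α → ℂ) : tw (fun _ => 0) n f = f := by
  funext L
  have : parL (fun _ : α => 0) L = 0 := by
    induction L with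
    | nil => rfl
    | cons x L ih => simp [ih]
  simp [this]

@[simp] theorem pr_nil (f g : List α → ℂ) : pr f g [] = f [] * g [] := rfl

theorem pr_cons (f g : List α → ℂ) (x : α) (L : List α) :
    pr f g (x :: L) = pr (dd x f) g L + pr f (dd x g) L := by
  rw [pr, smul2_cons, tw0]; rfl

theorem dd_pr (f g : List α → ℂ) (x : α) : dd x (pr f g) = pr (dd x f) g + pr f (dd x g) := by
  funext L; exact pr_cons f g x L

theorem pr_add_left (f g h : List α → ℂ) : pr (f + g) h = pr f h + pr g h := smul2_add_left f g h
theorem pr_add_right (f g h : List α → ℂ) : pr f (g + h) = pr f g + pr f h := smul2_add_right f g h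
theorem pr_smul_left (c : ℂ) (f g : List α → ℂ) : pr (c • f) g = c • pr f g := smul2_smul_left c f g
theorem pr_smul_right (c : ℂ) (f g : List α → ℂ) : pr f (c • g) = c • pr f g := smul2_smul_right c f g
@[simp] theorem pr_zero_left (g : List α → ℂ) : pr 0 g = 0 := smul2_zero_left g
@[simp] theorem pr_zero_right (g : List α → ℂ) : pr g 0 = 0 := smul2_zero_right g
theorem pr_assoc (f g h : List α → ℂ) : pr (pr f g) h = pr f (pr g h) := smul2_assoc f g h

theorem pr_comm (f g : List α → ℂ) : pr f g = pr g f := by
  funext L
  induction L generalizing f g with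
  | nil => simp [mul_comm]
  | cons x L ih => rw [pr_cons, pr_cons, ih, ih f, add_comm]

theorem pr_cst_left (c : ℂ) (f : List α → ℂ) : pr (cst c) f = c • f := by
  funext L
  induction L generalizing f with
  | nil => simp [cst]
  | cons x L ih =>
    rw [pr_cons]
    have : dd x (cst c : List α → ℂ) = 0 := rfl
    rw [this, pr_zero_left, ih]
    simp [dd]

/-- symmetric functions on lists -/
def Symm (f : List α → ℂ) : Prop := ∀ (K : List α) (x y : α) (L : List α),
  f (K ++ x :: y :: L) = f (K ++ y :: x :: L)

theorem Symm.dd {f : List α → ℂ} (hf : Symm f) (x : α) : Symm (dd x f) := by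
  intro K y z L
  exact hf (x :: K) y z L

theorem Symm.swap {f : List α → ℂ} (hf : Symm f) (x y : α) :
    H207.dd x (H207.dd y f) = H207.dd y (H207.dd x f) := by
  funext L
  exact hf [] y x L

theorem Symm.add {f g : List α → ℂ} (hf : Symm f) (hg : Symm g) : Symm (f + g) := by
  intro K y z L
  simp only [Pi.add_apply, hf K y z L, hg K y z L]

theorem Symm.smul {f : List α → ℂ} (c : ℂ) (hf : Symm f) : Symm (c • f) := by
  intro K y z L
  simp only [Pi.smul_apply, hf K y z L]

theorem Symm.pr {f g : List α → ℂ} (hf : Symm f) (hg : Symm g) : Symm (pr f g) := by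
  intro K
  induction K generalizing f g with
  | nil =>
    intro x y L
    simp only [List.nil_append, pr_cons]
    rw [hf.swap x y, hg.swap x y]
    ring
  | cons k K ih =>
    intro x y L
    simp only [List.cons_append, pr_cons]
    rw [ih (hf.dd k) hg x y L, ih hf (hg.dd k) x y L]

theorem Symm.perm {f : List α → ℂ} (hf : Symm f) {L L' : List α} (h : L.Perm L') :
    ∀ K, f (K ++ L) = f (K ++ L') := by
  induction h with
  | nil => intro K; rfl
  | cons x _ ih =>
    intro K
    have := ih (K ++ [x])
    simpa using this
  | swap x y l => intro K; exact hf K y x l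
  | trans _ _ ih1 ih2 => intro K; rw [ih1, ih2]

theorem Symm.perm' {f : List α → ℂ} (hf : Symm f) {L L' : List α} (h : L.Perm L') :
    f L = f L' := hf.perm h []

theorem pr_congr {f f' g g' : List α → ℂ} {L : List α}
    (hf : ∀ S : List α, S.length ≤ L.length → f S = f' S)
    (hg : ∀ S : List α, S.length ≤ L.length → g S = g' S) : pr f g L = pr f' g' L := by
  induction L generalizing f f' g g' with
  | nil => simp [hf [] le_rfl, hg [] le_rfl]
  | cons x L ih =>
    rw [pr_cons, pr_cons]
    congr 1
    · apply ih
      · intro S hS; exact hf (x :: S) (by simpa using hS)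
      · intro S hS; exact hg S (by simp; omega)
    · apply ih
      · intro S hS; exact hf S (by simp; omega)
      · intro S hS; exact hg (x :: S) (by simpa using hS)

/-- degree operator -/
def EE (f : List α → ℂ) : List α → ℂ := fun L => L.length * f L

theorem dd_EE (f : List α → ℂ) (x : α) : dd x (EE f) = EE (dd x f) + dd x f := by
  funext L
  simp [EE]
  ring

theorem EE_pr (f g : List α → ℂ) : EE (pr f g) = pr (EE f) g + pr f (EE g) := by
  funext L
  induction L generalizing f g with
  | nil => simp [EE]
  | cons x L ih =>
    have h1 := ih (dd x f) g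
    have h2 := ih f (dd x g)
    simp only [Pi.add_apply] at h1 h2 ⊢
    have : EE (pr f g) (x :: L) = EE (dd x (pr f g)) L + dd x (pr f g) L := by
      simp [EE]; ring
    rw [this, dd_pr, pr_cons, pr_cons, dd_EE, dd_EE, pr_add_left, pr_add_right]
    have h3 : EE (pr (dd x f) g + pr f (dd x g)) L = EE (pr (dd x f) g) L + EE (pr f (dd x g)) L := by
      simp [EE]; ring
    rw [h3, h1, h2]
    simp only [Pi.add_apply]
    ring

end Pr

/-! ### The lowering operator -/

/-- `lowN L f` is the sum over the entries `m ≥ 1` of `f` with this entry lowered by one -/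
def lowN : List ℕ → (List ℕ → ℂ) → ℂ
  | [], _ => 0
  | m :: L, f => (if m = 0 then 0 else f ((m - 1) :: L)) + lowN L (dd m f)

/-- lowering operator -/
def DD (f : List ℕ → ℂ) : List ℕ → ℂ := fun L => lowN L f

@[simp] theorem DD_nil (f : List ℕ → ℂ) : DD f [] = 0 := rfl

theorem DD_cons (f : List ℕ → ℂ) (m : ℕ) (L : List ℕ) :
    DD f (m :: L) = (if m = 0 then 0 else f ((m - 1) :: L)) + DD (dd m f) L := rfl

theorem dd_zero_DD (f : List ℕ → ℂ) : dd 0 (DD f) = DD (dd 0 f) := by
  funext L
  simp [DD_cons]

theorem DD_add (f g : List ℕ → ℂ) : DD (f + g) = DD f + DD g := by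
  funext L
  induction L generalizing f g with
  | nil => simp
  | cons m L ih =>
    simp only [Pi.add_apply, DD_cons, dd_add, ih]
    split_ifs <;> ring

theorem DD_smul (c : ℂ) (f : List ℕ → ℂ) : DD (c • f) = c • DD f := by
  funext L
  induction L generalizing f with
  | nil => simp
  | cons m L ih =>
    simp only [Pi.smul_apply, DD_cons, dd_smul, ih, smul_eq_mul]
    split_ifs <;> ring

@[simp] theorem DD_zero : DD 0 = 0 := by
  have := DD_smul 0 0
  simpa using this

theorem DD_cst (c : ℂ) : DD (cst c) = 0 := by
  funext L
  cases L with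
  | nil => rfl
  | cons m L =>
    have : dd m (cst c : List ℕ → ℂ) = 0 := rfl
    rw [DD_cons, this]
    simp [cst]

theorem DD_pr (f g : List ℕ → ℂ) : DD (pr f g) = pr (DD f) g + pr f (DD g) := by
  funext L
  induction L generalizing f g with
  | nil => simp
  | cons m L ih =>
    have h1 := ih (dd m f) g
    have h2 := ih f (dd m g)
    simp only [Pi.add_apply] at h1 h2 ⊢
    rw [DD_cons, dd_pr, DD_add, Pi.add_apply, h1, h2, pr_cons (DD f) g m L,
      pr_cons f (DD g) m L]
    have e : ∀ h : List ℕ → ℂ, dd m (DD h) = (if m = 0 then 0 else dd (m - 1) h) + DD (dd m h) := by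
      intro h
      funext K
      simp only [dd_apply, DD_cons, Pi.add_apply]
      split_ifs <;> rfl
    rw [e, e, pr_add_left, pr_add_right]
    simp only [Pi.add_apply]
    split_ifs with hm
    · simp; ring
    · rw [pr_cons]; ring

theorem DD_congr {f f' : List ℕ → ℂ} {L : List ℕ}
    (hf : ∀ S : List ℕ, S.length = L.length → f S = f' S) : DD f L = DD f' L := by
  induction L generalizing f f' with
  | nil => rfl
  | cons m L ih =>
    rw [DD_cons, DD_cons]
    congr 1
    · split_ifs
      · rfl
      · exact hf _ (by simp)
    · apply ih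
      intro S hS
      exact hf (m :: S) (by simpa using hS)

/-! ### The genus zero function -/

/-- product of the factorials -/
noncomputable def facP (L : List ℕ) : ℂ := (L.map fun m => ((m.factorial : ℕ) : ℂ)).prod

@[simp] theorem facP_nil : facP [] = 1 := rfl
@[simp] theorem facP_cons (m : ℕ) (L : List ℕ) : facP (m :: L) = m.factorial * facP L := by
  simp [facP]

theorem facP_ne (L : List ℕ) : facP L ≠ 0 := by
  induction L with
  | nil => simp
  | cons m L ih =>
    rw [facP_cons]
    exact mul_ne_zero (by exact_mod_cast m.factorial_ne_zero) ih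

/-- The genus zero descendant invariants of a point:
`⟨τ_{m₁} ⋯ τ_{mₙ}⟩_0 = (n-3)!/∏ mᵢ!` if `∑ mᵢ = n - 3`. -/
noncomputable def MM (L : List ℕ) : ℂ :=
  if L.sum + 3 = L.length then ((L.length - 3).factorial : ℂ) / facP L else 0

theorem low_general (A : ℕ → ℕ → ℂ) (L : List ℕ) :
    DD (fun L => A L.length L.sum / facP L) L = L.sum * A L.length (L.sum - 1) / facP L := by
  induction L generalizing A with
  | nil => simp
  | cons m L ih =>
    rw [DD_cons]
    have h1 : dd m (fun L : List ℕ => A L.length L.sum / facP L) =
        fun L => (fun n s => A (n + 1) (s + m) / (m.factorial : ℂ)) L.length L.sum / facP L := by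
      funext K
      simp only [dd_apply, List.length_cons, List.sum_cons, facP_cons]
      rw [add_comm m, div_div]
    rw [h1, ih (fun n s => A (n + 1) (s + m) / (m.factorial : ℂ))]
    have hf := facP_ne L
    have hm : ((m.factorial : ℕ) : ℂ) ≠ 0 := by exact_mod_cast m.factorial_ne_zero
    simp only [List.length_cons, List.sum_cons, facP_cons]
    by_cases hs : L.sum = 0
    · rw [hs]
      by_cases h0 : m = 0
      · subst h0; simp
      · rw [if_neg h0]
        obtain ⟨k, rfl⟩ : ∃ k, m = k + 1 := ⟨m - 1, by omega⟩
        have hk : ((k.factorial : ℕ) : ℂ) ≠ 0 := by exact_mod_cast k.factorial_ne_zero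
        have hk1 : ((k : ℂ) + 1) ≠ 0 := by exact_mod_cast k.succ_ne_zero
        simp only [Nat.add_sub_cancel, Nat.factorial_succ, add_zero]
        push_cast
        field_simp
        simp
    · have e2 : L.sum - 1 + m = m + L.sum - 1 := by omega
      rw [e2]
      by_cases h0 : m = 0
      · subst h0
        simp
      · rw [if_neg h0]
        obtain ⟨k, rfl⟩ : ∃ k, m = k + 1 := ⟨m - 1, by omega⟩
        have hk : ((k.factorial : ℕ) : ℂ) ≠ 0 := by exact_mod_cast k.factorial_ne_zero
        have hk1 : ((k : ℂ) + 1) ≠ 0 := by exact_mod_cast k.succ_ne_zero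
        have e3 : k + 1 + L.sum - 1 = k + L.sum := by omega
        simp only [Nat.add_sub_cancel, Nat.factorial_succ, e3]
        push_cast
        field_simp

theorem MM_eq : MM = fun L => (fun n s => if s + 3 = n then ((n - 3).factorial : ℂ) else 0)
    L.length L.sum / facP L := by
  funext L
  simp only [MM]
  split_ifs <;> simp

/-- exceptional term of the string equation -/
noncomputable def E2 (L : List ℕ) : ℂ := if L = [0, 0] then 1 else 0

theorem MM_string : dd 0 MM = DD MM + E2 := by
  funext L
  have h := low_general (fun n s => if s + 3 = n then ((n - 3).factorial : ℂ) else 0) L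
  rw [← MM_eq] at h
  simp only [Pi.add_apply, dd_apply]
  rw [h]
  have hf := facP_ne L
  simp only [MM, E2, List.sum_cons, List.length_cons, zero_add, facP_cons, Nat.factorial_zero,
    Nat.cast_one, one_mul]
  by_cases h1 : L.sum + 3 = L.length + 1
  · rw [if_pos h1]
    by_cases h2 : L.sum = 0
    · have h3 : L.length = 2 := by omega
      match L, h3 with
      | [a, b], _ =>
        simp at h2
        obtain ⟨rfl, rfl⟩ := h2
        simp
    · rw [if_pos (by omega)]
      have h4 : L ≠ [0, 0] := by rintro rfl; simp at h2
      rw [if_neg h4, add_zero]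
      have h5 : L.length + 1 - 3 = (L.length - 3) + 1 := by omega
      rw [h5, Nat.factorial_succ]
      have h6 : ((L.length - 3 : ℕ) : ℂ) + 1 = L.sum := by
        have : L.length - 3 + 1 = L.sum := by omega
        exact_mod_cast this
      rw [← h6, Nat.cast_mul, Nat.cast_add, Nat.cast_one]
  · rw [if_neg h1]
    have h4 : L ≠ [0, 0] := by rintro rfl; simp at h1
    rw [if_neg h4]
    by_cases h2 : L.sum = 0
    · simp [h2]
    · rw [if_neg (by omega)]
      simp

theorem MM_symm : Symm MM := by
  intro K x y L
  have h : (K ++ x :: y :: L).Perm (K ++ y :: x :: L) :=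
    List.Perm.append_left K (List.Perm.swap y x L)
  simp only [MM, facP]
  rw [h.length_eq, h.sum_eq, (h.map _).prod_eq]

theorem MM_dilaton (L : List ℕ) : MM (1 :: L) = ((L.length : ℂ) - 2) * MM L := by
  have hf := facP_ne L
  simp only [MM, List.sum_cons, List.length_cons, facP_cons, Nat.factorial_one, Nat.cast_one,
    one_mul]
  by_cases h : L.sum + 3 = L.length
  · rw [if_pos h, if_pos (by omega)]
    have h5 : L.length + 1 - 3 = (L.length - 3) + 1 := by omega
    rw [h5, Nat.factorial_succ]
    have h6 : ((L.length - 3 : ℕ) : ℂ) + 1 = L.length - 2 := by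
      rw [Nat.cast_sub (by omega)]; push_cast; ring
    push_cast
    rw [h6]
    ring
  · rw [if_neg h, if_neg (by omega)]
    simp

theorem MM_dim {L : List ℕ} (h : MM L ≠ 0) : L.sum + 3 = L.length := by
  by_contra h2
  exact h (by rw [MM, if_neg h2])

theorem dd_DD (f : List ℕ → ℂ) (m : ℕ) :
    dd m (DD f) = (if m = 0 then 0 else dd (m - 1) f) + DD (dd m f) := by
  funext K
  simp only [dd_apply, DD_cons, Pi.add_apply]
  split_ifs <;> rfl

/-- support of a product -/
theorem pr_supp {α : Type*} (w : α → ℤ) {f g : List α → ℂ} {a b : ℤ}
    (hf : ∀ S : List α, f S ≠ 0 → (S.map w).sum = a)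
    (hg : ∀ S : List α, g S ≠ 0 → (S.map w).sum = b) (L : List α) (h : pr f g L ≠ 0) :
    (L.map w).sum = a + b := by
  induction L generalizing f g a b with
  | nil =>
    simp only [pr_nil] at h
    have h1 := hf [] (left_ne_zero_of_mul h)
    have h2 := hg [] (right_ne_zero_of_mul h)
    rw [← h1, ← h2]; simp
  | cons x L ih =>
    rw [pr_cons] at h
    have h'' : pr (dd x f) g L ≠ 0 ∨ pr f (dd x g) L ≠ 0 := by
      by_contra hc
      push Not at hc
      rw [hc.1, hc.2, add_zero] at h
      exact h rfl
    rcases h'' with h' | h'
    · have := ih (f := dd x f) (g := g) (a := a - w x) (b := b) (by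
        intro S hS
        have := hf (x :: S) hS
        simp only [List.map_cons, List.sum_cons] at this
        linarith) hg h'
      simp only [List.map_cons, List.sum_cons]
      linarith
    · have := ih (f := f) (g := dd x g) (a := a) (b := b - w x) hf (by
        intro S hS
        have := hg (x :: S) hS
        simp only [List.map_cons, List.sum_cons] at this
        linarith) h'
      simp only [List.map_cons, List.sum_cons]
      linarith

theorem map_wt (L : List ℕ) : (L.map fun m : ℕ => (m : ℤ) - 1).sum = (L.sum : ℤ) - L.length := by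
  induction L with
  | nil => simp
  | cons m L ih =>
    simp only [List.map_cons, List.sum_cons, List.length_cons, ih]
    rw [Nat.cast_add, Nat.cast_add]
    push_cast
    ring

/-- the genus zero topological recursion relation for the multinomial coefficients -/
theorem MM_trr (n : ℕ) : ∀ L : List ℕ, L.length = n → ∀ m x y : ℕ,
    MM ((m + 1) :: x :: y :: L) =
      pr (dd 0 (dd m MM)) (dd y (dd x (dd 0 MM))) L := by
  induction n with
  | zero =>
    intro L hL m x y
    have : L = [] := List.length_eq_zero_iff.mp hL
    subst this
    have h1 : MM [m + 1, x, y] = 0 := by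
      rw [MM, if_neg]; simp
    rw [h1, pr_nil]
    have h2 : dd 0 (dd m MM) [] = 0 := by
      simp only [dd_apply, MM]
      rw [if_neg]; simp
    rw [h2, zero_mul]
  | succ n ih =>
    intro L hL m x y
    by_cases hdim : (m + 1 + x + y) + L.sum = L.length
    · have h0 : 0 ∈ L := by
        by_contra hne
        have : L.length ≤ L.sum := by
          have hall : ∀ a ∈ L, 1 ≤ a := by
            intro a ha
            rcases Nat.eq_zero_or_pos a with h | h
            · exact absurd (h ▸ ha) hne
            · exact h
          clear hdim hL ih hne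
          induction L with
          | nil => simp
          | cons a L ih2 =>
            have := ih2 (fun b hb => hall b (List.mem_cons_of_mem _ hb))
            have := hall a (by simp)
            simp only [List.length_cons, List.sum_cons]
            omega
        omega
      have hperm := List.perm_cons_erase h0
      have hlen : (L.erase 0).length = n := by
        rw [List.length_erase_of_mem h0, hL]; rfl
      have hs1 : Symm (dd y (dd x (dd (m + 1) MM))) := ((MM_symm.dd _).dd _).dd _
      have hs2 : Symm (pr (dd 0 (dd m MM)) (dd y (dd x (dd 0 MM)))) :=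
        ((MM_symm.dd _).dd _).pr (((MM_symm.dd _).dd _).dd _)
      have e1 := hs1.perm' hperm
      have e2 := hs2.perm' hperm
      simp only [dd_apply] at e1
      rw [e1, e2]
      set L' := L.erase 0
      have c1 : MM ((m + 1) :: x :: y :: 0 :: L') = MM (0 :: (m + 1) :: x :: y :: L') := by
        have h1 := MM_symm [m + 1, x] y 0 L'
        have h2 := MM_symm [m + 1] x 0 (y :: L')
        have h3 := MM_symm [] (m + 1) 0 (x :: y :: L')
        simp only [List.cons_append, List.nil_append] at h1 h2 h3
        rw [h1, h2, h3]
      have c2 : MM (0 :: (m + 1) :: x :: y :: L') = DD MM ((m + 1) :: x :: y :: L') := by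
        have := congrFun MM_string ((m + 1) :: x :: y :: L')
        simpa [E2] using this
      have f0 : dd 0 (dd 0 (dd m MM)) = (if m = 0 then cst 1 else dd 0 (dd (m - 1) MM))
          + DD (dd 0 (dd m MM)) := by
        have a1 : dd 0 (dd 0 (dd m MM)) = dd 0 (dd m (DD MM + E2)) := by
          rw [← MM_string, (MM_symm).swap 0 m]
        have hE : dd 0 (dd m E2) = if m = 0 then cst 1 else 0 := by
          funext S
          simp only [dd_apply, E2]
          split_ifs with h h' h'
          · simp at h; rw [h.2]; rfl
          · simp at h; exact absurd h.1 h'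
          · cases S with
            | nil => simp [h'] at h
            | cons a S => rfl
          · rfl
        rw [a1, dd_add, dd_add, hE, dd_DD, dd_add, dd_zero_DD]
        split_ifs
        · rw [dd_zero, zero_add, add_comm]
        · rw [add_zero]
      have g0 : dd 0 (dd y (dd x (dd 0 MM))) = (if x = 0 then 0 else dd y (dd (x - 1) (dd 0 MM)))
          + (if y = 0 then 0 else dd (y - 1) (dd x (dd 0 MM))) + DD (dd y (dd x (dd 0 MM))) := by
        have a1 : dd 0 (dd y (dd x (dd 0 MM))) = dd y (dd x (dd 0 (DD MM + E2))) := by
          rw [← MM_string, (((MM_symm).dd 0).dd x).swap 0 y, ((MM_symm).dd 0).swap 0 x]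
        have hE : dd y (dd x (dd 0 E2)) = 0 := by
          funext S
          simp [E2]
        have h1 : ∀ (c : Prop) [Decidable c] (h : List ℕ → ℂ),
            dd y (if c then 0 else h) = if c then 0 else dd y h := by
          intro c _ h
          split_ifs <;> rfl
        rw [a1, dd_add, dd_add, dd_add, hE, add_zero, dd_zero_DD, dd_DD, dd_add, dd_DD, h1]
        abel
      rw [c1, c2, DD_cons, DD_cons, DD_cons, pr_cons, f0, g0, pr_add_left, pr_add_right,
        pr_add_right]
      simp only [Pi.add_apply]
      rw [if_neg (Nat.succ_ne_zero m), Nat.add_sub_cancel]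
      have r1 : MM (m :: x :: y :: L') =
          pr (if m = 0 then cst 1 else dd 0 (dd (m - 1) MM)) (dd y (dd x (dd 0 MM))) L' := by
        split_ifs with hm
        · subst hm
          rw [pr_cst_left]
          simp
        · have := ih L' hlen (m - 1) x y
          rw [show m - 1 + 1 = m by omega] at this
          exact this
      have r2 : (if x = 0 then 0 else dd (m + 1) MM ((x - 1) :: y :: L')) =
          pr (dd 0 (dd m MM)) (if x = 0 then 0 else dd y (dd (x - 1) (dd 0 MM))) L' := by
        split_ifs with hx
        · simp
        · exact ih L' hlen m (x - 1) y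
      have r3 : (if y = 0 then 0 else dd x (dd (m + 1) MM) ((y - 1) :: L')) =
          pr (dd 0 (dd m MM)) (if y = 0 then 0 else dd (y - 1) (dd x (dd 0 MM))) L' := by
        split_ifs with hy
        · simp
        · exact ih L' hlen m x (y - 1)
      have r4 : DD (dd y (dd x (dd (m + 1) MM))) L' =
          DD (pr (dd 0 (dd m MM)) (dd y (dd x (dd 0 MM)))) L' := by
        apply DD_congr
        intro S hS
        exact ih S (hS.trans hlen) m x y
      rw [r1, r2, r3, r4, DD_pr]
      simp only [Pi.add_apply]
      ring
    · have h1 : MM ((m + 1) :: x :: y :: L) = 0 := by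
        by_contra h
        have := MM_dim h
        simp only [List.sum_cons, List.length_cons] at this
        omega
      rw [h1]
      symm
      by_contra h
      have := pr_supp (fun m : ℕ => (m : ℤ) - 1) (a := -2 - m + 1) (b := 0 - x - y) (by
        intro S hS
        have := MM_dim (L := m :: 0 :: S) hS
        rw [map_wt]
        simp only [List.sum_cons, List.length_cons] at this
        omega) (by
        intro S hS
        have := MM_dim (L := 0 :: x :: y :: S) hS
        rw [map_wt]
        simp only [List.sum_cons, List.length_cons] at this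
        omega) L h
      rw [map_wt] at this
      omega

end Vale.Agent.P269.H707
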