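import Vale.Agent.P269.H707.CIAlg

/-! # Values of the explicit system (helper707) -/

set_option autoImplicit false

namespace Vale.Agent.P269.H707

open Vale.Agent.P269.H207 Matrix

/-- `∫ φ_a φ_b φ_c` -/
noncomputable def ciTriple (D : ℕ) (ds : List ℕ) (a b c : CIIdx D ds) : ℂ :=
  ∑ e, ciMul D ds b a e * ciEta D ds e c

theorem gf_three {X : Target} (A : CupAlg X) (a b c : X.ι) :
    gf A MM (Pi.single X.one 1) [(0, a), (0, b), (0, c)] = ∑ e, A.rm b a e * X.η e c := by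
  have h1 : MM [0, 0, 0] = 1 := by simp [MM]
  have h2 : (A.rm a).row X.one = Pi.single a 1 := A.one_rm a
  simp only [gf, List.map_cons, List.map_nil, h1, one_mul]
  rw [ig_cons, Matrix.single_one_vecMul, h2, ig_cons, Matrix.single_one_vecMul, ig_cons]
  change ((A.rm b a) ᵥ* A.rm c) ⬝ᵥ A.tr = _
  rw [← Matrix.dotProduct_mulVec]
  apply Finset.sum_congr rfl
  intro e _
  congr 1
  exact A.eta_eq e c

theorem ciGW_three (D : ℕ) (ds : List ℕ) (hD : 3 ≤ D) (hds : ∀ d ∈ ds, 1 ≤ d) (N : ℕ → ℂ)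
    (a b c : CIIdx D ds) :
    ciGW D ds hD hds N 0 0 [(0, a), (0, b), (0, c)] = ciTriple D ds a b c :=
  gf_three (ciAlg D ds (by omega) hds) a b c

theorem ciGW_const (D : ℕ) (ds : List ℕ) (hD : 3 ≤ D) (hds : ∀ d ∈ ds, 1 ≤ d) (N : ℕ → ℂ)
    (hN : D ≠ 3 → ∀ g, N g = 0) (g : ℕ) (hg : 2 ≤ g) : ciGW D ds hD hds N g 0 [] = N g := by
  obtain ⟨k, rfl⟩ : ∃ k, g = k + 1 + 1 := ⟨g - 2, by omega⟩
  rw [ciGW, gwDeg0_two]
  change (if D = 3 then _ else _ : List _ → ℂ) [] = _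
  split_ifs with h
  · have h1 : gf (ciAlg D ds (by omega) hds) (pw (2 * k + 2)) (ciChern D ds (by omega) hds).pt [] = 1 := by
      simp only [gf, List.map_nil, pw_nil, one_mul]
      exact ciPt_tr D ds hds
    rw [Pi.smul_apply, h1, smul_eq_mul, mul_one]
  · rw [hN h]
    rfl

theorem ciGW_pos (D : ℕ) (ds : List ℕ) (hD : 3 ≤ D) (hds : ∀ d ∈ ds, 1 ≤ d) (N : ℕ → ℂ)
    (g d : ℕ) (hd : d ≠ 0) : ciGW D ds hD hds N g d = 0 := by
  obtain ⟨k, rfl⟩ : ∃ k, d = k + 1 := ⟨d - 1, by omega⟩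
  exact gwDeg0_pos _ _ N g k

end Vale.Agent.P269.H707
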